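import Vale.Agent.P259.Top.Space
import Vale.Agent.P259.Homotopy.Based
import Vale.Agent.P259.Disc.Rel

/-!
# From cubes to discs (P259)
-/

namespace Vale.Agent.P259.Top

open Set unitInterval

noncomputable section

variable {E B : Type} [TopologicalSpace E] [TopologicalSpace B] {N n : ℕ}

/-- The standard disc and the cube. -/
def dc (n : ℕ) : Disc.Dn n ≃ₜ (Fin n → I) := Hpy.discCube n

theorem dc_incl (z : Disc.Sn n) : dc n (Disc.incl z) ∈ bd (Fin n) :=
  (Hpy.mem_bd_iff n (Disc.incl z)).1 (mem_sphere_zero_iff_norm.1 z.2)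

/-- The boundary of the cube as the sphere. -/
def dcS (n : ℕ) : C(bd (Fin n), Disc.Sn n) :=
  ⟨fun y => ⟨((dc n).symm y.1).1, mem_sphere_zero_iff_norm.2 ((Hpy.symm_mem_bd_iff n y.1).2 y.2)⟩,
    (continuous_subtype_val.comp ((dc n).symm.continuous.comp continuous_subtype_val)).subtype_mk _⟩

theorem incl_dcS (y : bd (Fin n)) : Disc.incl (dcS n y) = (dc n).symm y.1 := Subtype.ext rfl

theorem dcS_dc (z : Disc.Sn n) : dcS n ⟨dc n (Disc.incl z), dc_incl z⟩ = z := by
  apply Subtype.ext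
  show ((dc n).symm (dc n (Disc.incl z))).1 = z.1
  rw [Homeomorph.symm_apply_apply]
  rfl

/-- In a connected space spheres bound discs. -/
theorem Conn.fill (h : Conn N E) (hn : n ≤ N) (a : C(Disc.Sn n, E)) :
    ∃ F : C(Disc.Dn n, E), ∀ z, F (Disc.incl z) = a z := by
  obtain ⟨g, hg⟩ := h (Fin n) (by simpa using hn) (a.comp (dcS n))
  exact ⟨g.comp ⟨dc n, (dc n).continuous⟩, fun z =>
    (hg ⟨_, dc_incl z⟩).trans (congrArg a (dcS_dc z))⟩

variable {f : C(E, B)}

/-- Extension of a sphere which bounds after a good map. -/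
theorem Good.extend_disc (hf : Good N f) (hn : n ≤ N) (a : C(Disc.Sn n, E)) (G : C(Disc.Dn n, B))
    (hG : ∀ z, G (Disc.incl z) = f (a z)) :
    ∃ F : C(Disc.Dn n, E), ∀ z, F (Disc.incl z) = a z := by
  obtain ⟨g, hg⟩ := (hf.mono hn).extends_top (Fin n) (by simp) (a.comp (dcS n))
    (G.comp ⟨(dc n).symm, (dc n).symm.continuous⟩) fun y => by
      show G ((dc n).symm y.1) = _
      rw [← incl_dcS, hG]
      rfl
  exact ⟨g.comp ⟨dc n, (dc n).continuous⟩, fun z =>
    (hg ⟨_, dc_incl z⟩).trans (congrArg a (dcS_dc z))⟩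

/-- Lifting of a disc relative to the sphere, up to homotopy relative to the sphere. -/
theorem Good.lift_disc (hf : Good N f) (hn : n < N) (a : C(Disc.Sn n, E)) (G : C(Disc.Dn n, B))
    (hG : ∀ z, G (Disc.incl z) = f (a z)) :
    ∃ F : C(Disc.Dn n, E), (∀ z, F (Disc.incl z) = a z) ∧ Disc.HRel G (f.comp F) := by
  obtain ⟨g, hg, M, hM0, hM1, hMb⟩ := hf.compress (Fin n) (by simpa using hn) (a.comp (dcS n))
    (G.comp ⟨(dc n).symm, (dc n).symm.continuous⟩) fun y => by
      show G ((dc n).symm y.1) = _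
      rw [← incl_dcS, hG]
      rfl
  refine ⟨g.comp ⟨dc n, (dc n).continuous⟩,
    fun z => (hg ⟨_, dc_incl z⟩).trans (congrArg a (dcS_dc z)),
    M.comp ⟨fun p => (dc n p.1, p.2), ((dc n).continuous.comp continuous_fst).prodMk continuous_snd⟩,
    fun x => ?_, fun x => hM1 _, fun z t => ?_⟩
  · show M (dc n x, 0) = G x
    rw [hM0]
    show G ((dc n).symm (dc n x)) = G x
    rw [Homeomorph.symm_apply_apply]
  · show M (dc n (Disc.incl z), t) = G (Disc.incl z)
    rw [hMb _ (dc_incl z)]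
    show G ((dc n).symm (dc n (Disc.incl z))) = _
    rw [Homeomorph.symm_apply_apply]

/-- Good maps are injective on classes relative to the sphere. -/
theorem Good.hRel_inj (hf : Good N f) (hn : n < N) (F F' : C(Disc.Dn n, E))
    (hb : ∀ z, F (Disc.incl z) = F' (Disc.incl z)) (h : Disc.HRel (f.comp F) (f.comp F')) :
    Disc.HRel F F' := by
  obtain ⟨W, hs, ht⟩ := h.conn
  obtain ⟨a, has, hat⟩ := Disc.exists_glue F F' hb
  obtain ⟨K, hK⟩ := hf.extend_disc (n := n + 1) hn a W fun z => by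
    refine congrFun (Disc.sphere_ext (F := fun z => W (Disc.incl z)) (G := fun z => f (a z))
      (fun x => ?_) fun x => ?_) z
    · exact (hs x).trans (congrArg f (has x)).symm
    · exact (ht x).trans (congrArg f (hat x)).symm
  exact Disc.Conn.hRel ⟨K, fun x => (hK _).trans (has x), fun x => (hK _).trans (hat x)⟩

end

end Vale.Agent.P259.Top
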