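import Vale.Agent.P259.Top.Calculus
import Mathlib.Topology.Algebra.Monoid
import Mathlib.Logic.Equiv.Option

/-!
# Lifting sphere maps along good maps; two out of three on the right (P259)
-/

namespace Vale.Agent.P259.Top

open Set unitInterval

universe u v w

variable {A : Type u} {B : Type v} {C : Type w}
  [TopologicalSpace A] [TopologicalSpace B] [TopologicalSpace C]
variable {f : A → B} {g : B → C} {n : ℕ}

theorem Good.point (hf : Good n f) (hn : 0 < n) (c : B) :
    ∃ (a₀ : A) (Q : I → B), Continuous Q ∧ Q 0 = c ∧ Q 1 = f a₀ := by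
  have : IsEmpty (bd (Fin 0)) := ⟨fun x => by obtain ⟨j, -⟩ := x.2; exact j.elim0⟩
  obtain ⟨l, -, M, hM0, hM1, -⟩ := hf.compress (Fin 0) (by simpa using hn)
    ⟨isEmptyElim, continuous_of_discreteTopology⟩ (ContinuousMap.const _ c) fun x => isEmptyElim x
  exact ⟨l fun _ => 0, fun t => M (fun _ => 0, t),
    M.continuous.comp (continuous_const.prodMk continuous_id), hM0 _, hM1 _⟩

theorem liftBd_option (hf : Good n f) {κ : Type} [Fintype κ] (hκ : Fintype.card κ < n)
    {a : (Option κ → I) → B} (ha : ContinuousOn a (bd (Option κ))) :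
    ∃ (b : (Option κ → I) → A) (P : (Option κ → I) × I → B),
      ContinuousOn b (bd (Option κ)) ∧ ContinuousOn P {p | p.1 ∈ bd (Option κ)} ∧
      (∀ z ∈ bd (Option κ), P (z, 0) = a z) ∧ ∀ z ∈ bd (Option κ), P (z, 1) = f (b z) := by
  classical
  have hbox : ∀ p ∈ box κ, opt p ∈ bd (Option κ) := fun p hp => by
    rcases hp with h | h
    · exact mem_bd_option.2 (Or.inl h)
    · exact mem_bd_option.2 (Or.inr (Or.inr h))
  obtain ⟨E, hE, hEe, -⟩ := extend_box (f := a ∘ opt) (ha.comp continuous_opt.continuousOn hbox)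
  obtain ⟨a₀, Q, hQ, hQ0, hQ1⟩ := hf.point (Nat.zero_lt_of_lt hκ) (E (fun _ => 0, 0))
  let R : ((κ → I) × I) × I → (κ → I) × I := fun q =>
    (fun j => q.1.1 j * unitInterval.symm q.2, q.1.2 * unitInterval.symm q.2)
  have hs : Continuous fun q : ((κ → I) × I) × I => unitInterval.symm q.2 :=
    unitInterval.continuous_symm.comp continuous_snd
  have hmul : ∀ {T : Type} [TopologicalSpace T] {u v : T → I}, Continuous u → Continuous v →
      Continuous fun t => u t * v t := fun hu hv =>
    Continuous.subtype_mk ((continuous_subtype_val.comp hu).mul (continuous_subtype_val.comp hv)) _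
  have hR : Continuous R := (continuous_pi fun j =>
    hmul ((continuous_apply j).comp (continuous_fst.comp continuous_fst)) hs).prodMk
      (hmul (continuous_snd.comp continuous_fst) hs)
  obtain ⟨K, hK, hK0, hK1, -, -⟩ := concat (hE.comp hR) (hQ.comp continuous_snd) fun p => by
    simp [R, hQ0]
  have hK0' : ∀ p, K (p, 0) = E p := fun p => by rw [hK0]; simp [R]
  have hK1' : ∀ p, K (p, 1) = f a₀ := fun p => by rw [hK1]; exact hQ1
  have htop : ∀ x, opt (x, (1 : I)) ∈ bd (Option κ) := fun x => mem_bd_option.2 (Or.inr (Or.inl rfl))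
  obtain ⟨l, hl, M, hM0, hM1, hMb⟩ := hf.flex hκ (ContinuousMap.const _ a₀)
    ⟨fun x => a (opt (x, 1)),
      ha.comp_continuous (continuous_opt.comp (continuous_id.prodMk continuous_const)) htop⟩
    (P := fun p => K ((p.1, 1), p.2))
    (hK.comp ((continuous_fst.prodMk continuous_const).prodMk continuous_snd)).continuousOn
    (fun x hx => by
      show K ((x, 1), 0) = a (opt (x, 1))
      rw [hK0']; exact hEe (show ((x, (1 : I)) : (κ → I) × I) ∈ box κ from Or.inr hx))
    fun x => by show K ((x.1, 1), 1) = f a₀; rw [hK1']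
  have hcn : Continuous fun z : Option κ → I => z none := continuous_apply none
  have hcx : Continuous fun z : Option κ → I => (unopt z).1 := continuous_fst.comp continuous_unopt
  let b : (Option κ → I) → A := fun z => if z none = 1 then l (unopt z).1 else a₀
  let P : (Option κ → I) × I → B := fun q =>
    if q.1 none = 1 then M ((unopt q.1).1, q.2) else K (unopt q.1, q.2)
  have hbd : bd (Option κ) = {z | unopt z ∈ box κ} ∪ {z | z none = 1} := by
    ext z
    simp only [mem_bd_option, box, Set.mem_ofPred_eq, Set.mem_union, unopt]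
    tauto
  have hbox1 : ∀ z : Option κ → I, unopt z ∈ box κ → z none = 1 → (unopt z).1 ∈ bd κ := by
    intro z hz h1
    rcases hz with hz | hz
    · exact absurd (hz.symm.trans h1) zero_ne_one
    · exact hz
  have hbox' : ∀ z : Option κ → I, unopt z ∈ box κ → b z = a₀ := fun z hz => by
    by_cases h1 : z none = 1
    · simp only [b, if_pos h1]
      exact hl ⟨_, hbox1 z hz h1⟩
    · simp [b, h1]
  refine ⟨b, P, ?_, ?_, fun z hz => ?_, fun z hz => ?_⟩
  · rw [hbd]
    exact ContinuousOn.union_of_isClosed (continuousOn_const.congr hbox')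
      ((l.continuous.comp hcx).continuousOn.congr fun z hz => if_pos hz)
      ((isClosed_box κ).preimage continuous_unopt) (isClosed_eq hcn continuous_const)
  · have : {p : (Option κ → I) × I | p.1 ∈ bd (Option κ)} =
        {p | unopt p.1 ∈ box κ} ∪ {p | p.1 none = 1} := by
      ext p; simp only [hbd, Set.mem_ofPred_eq, Set.mem_union]
    rw [this]
    refine ContinuousOn.union_of_isClosed
      ((hK.comp ((continuous_unopt.comp continuous_fst).prodMk continuous_snd)).continuousOn.congr
        fun p hp => ?_)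
      ((M.continuous.comp ((hcx.comp continuous_fst).prodMk continuous_snd)).continuousOn.congr
        fun p hp => if_pos hp)
      ((isClosed_box κ).preimage (continuous_unopt.comp continuous_fst))
      (isClosed_eq (hcn.comp continuous_fst) continuous_const)
    by_cases h1 : p.1 none = 1
    · simp only [P, if_pos h1, Function.comp]
      rw [hMb _ (hbox1 _ hp h1)]
      exact congrArg (fun r => K (r, p.2)) (Prod.ext rfl h1.symm)
    · simp [P, h1]
  · have hz' : opt (unopt z) = z := funext fun o => by cases o <;> rfl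
    by_cases h1 : z none = 1
    · simp only [P, if_pos h1]
      rw [hM0]
      show a (opt ((unopt z).1, 1)) = a z
      conv_rhs => rw [← hz']
      rw [show unopt z = ((unopt z).1, 1) from Prod.ext rfl h1]
    · simp only [P, if_neg h1]
      rw [hbd] at hz
      rcases hz with hz | hz
      · rw [hK0', hEe hz, Function.comp, hz']
      · exact absurd hz h1
  · by_cases h1 : z none = 1
    · simp only [P, b, if_pos h1]
      exact hM1 _
    · simp only [P, b, if_neg h1]
      exact hK1' _

/-- A sphere of dimension `< n` in `B` is homotopic to the image of one in `A`. -/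
theorem Good.liftBd (hf : Good n f) {ι : Type} [Fintype ι] [Nonempty ι]
    (hι : Fintype.card ι ≤ n) {a : (ι → I) → B} (ha : ContinuousOn a (bd ι)) :
    ∃ (b : C(bd ι, A)) (P : (ι → I) × I → B), ContinuousOn P {p | p.1 ∈ bd ι} ∧
      (∀ z ∈ bd ι, P (z, 0) = a z) ∧ ∀ z : bd ι, P (z.1, 1) = f (b z) := by
  classical
  obtain ⟨i₀⟩ := ‹Nonempty ι›
  let e : Option {y // y ≠ i₀} ≃ ι := Equiv.optionSubtypeNe i₀
  have hcard : Fintype.card {y // y ≠ i₀} < n := by
    have := Fintype.card_congr e
    rw [Fintype.card_option] at this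
    omega
  let φ : (Option {y // y ≠ i₀} → I) → (ι → I) := fun z i => z (e.symm i)
  let ψ : (ι → I) → (Option {y // y ≠ i₀} → I) := fun x o => x (e o)
  have hφ : Continuous φ := continuous_pi fun i => continuous_apply (e.symm i)
  have hψ : Continuous ψ := continuous_pi fun o => continuous_apply (e o)
  have hφψ : ∀ x, φ (ψ x) = x := fun x => funext fun i => by simp [φ, ψ]
  have hφm : MapsTo φ (bd _) (bd ι) := fun z ⟨o, ho⟩ => ⟨e o, by simpa [φ] using ho⟩
  have hψm : MapsTo ψ (bd ι) (bd _) := fun x ⟨i, hi⟩ => ⟨e.symm i, by simpa [ψ] using hi⟩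
  obtain ⟨b, P, hb, hP, hP0, hP1⟩ := liftBd_option hf hcard (a := a ∘ φ)
    (ha.comp hφ.continuousOn hφm)
  refine ⟨⟨fun x => b (ψ x), hb.comp_continuous (hψ.comp continuous_subtype_val)
    fun x => hψm x.2⟩, fun p => P (ψ p.1, p.2),
    hP.comp ((hψ.comp continuous_fst).prodMk continuous_snd).continuousOn fun p hp => hψm hp,
    fun z hz => ?_, fun z => hP1 _ (hψm z.2)⟩
  show P (ψ z, 0) = a z
  rw [hP0 _ (hψm hz), Function.comp, hφψ]

/-- Two out of three: `g ∘ f` and `f` good imply `g` good. -/
theorem Good.of_comp_right (hgf : Good n (g ∘ f)) (hf : Good n f) (cg : Continuous g)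
    (cf : Continuous f) : Good n g := by
  refine ⟨fun ι _ hι a G hG => ?_, fun ι _ hι a G hG => ?_⟩
  all_goals
    rcases isEmpty_or_nonempty ι with hι0 | hι0
  · have : IsEmpty (bd ι) := ⟨fun x => by obtain ⟨j, -⟩ := x.2; exact hι0.elim j⟩
    obtain ⟨l, -, M, hM0, hM1, -⟩ := hgf.compress ι hι
      ⟨isEmptyElim, continuous_of_discreteTopology⟩ G fun x => isEmptyElim x
    exact ⟨ContinuousMap.comp ⟨f, cf⟩ l, fun x => isEmptyElim x, M, hM0, hM1,
      fun x hx => this.elim ⟨x, hx⟩⟩
  · let p₀ : bd ι := ⟨fun _ => 0, hι0.some, Or.inl rfl⟩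
    obtain ⟨a', ha', hae⟩ := exists_total a (a p₀)
    obtain ⟨b, P, hP, hP0, hP1⟩ := hf.liftBd hι.le ha'
    obtain ⟨l, hl, M, hM0, hM1, hMb⟩ := hgf.flex hι b G (P := g ∘ P) (cg.comp_continuousOn hP)
      (fun x hx => by simp [hP0 x hx, hae ⟨x, hx⟩, hG ⟨x, hx⟩]) (fun x => by simp [hP1 x])
    obtain ⟨K, hK, -, hK0, hKb⟩ := hep (U := univ) (cf.comp l.continuous) (fun _ => mem_univ _)
      (M := fun p => P (p.1, unitInterval.symm p.2))
      (hP.comp (continuous_fst.prodMk (unitInterval.continuous_symm.comp continuous_snd)).continuousOn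
        fun p hp => hp)
      (fun _ _ => mem_univ _) (fun x hx => by simp [hP1 ⟨x, hx⟩, hl ⟨x, hx⟩])
    obtain ⟨N, hN, hN0, hN1, hNl, hNr⟩ := concat M.continuous (cg.comp hK)
      fun x => by simp [hM1, hK0]
    let φ : I → I := fun t => projIcc 0 1 zero_le_one (1 - |2 * (t : ℝ) - 1|)
    obtain ⟨N', hN', hN'0, hN'1, hN'b⟩ := adjust hN (P := g ∘ P) (cg.comp_continuousOn hP)
      (φ := φ) (ψ := fun _ => 0)
      (continuous_projIcc.comp (continuous_const.sub
        ((continuous_const.mul continuous_subtype_val).sub continuous_const).abs))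
      continuous_const (by simp [φ]) (by norm_num [φ]) fun x hx t => by
        by_cases ht : (t : ℝ) ≤ 1 / 2
        · rw [hNl x t ht, hMb x hx]
          congr 2
          simp only [φ]
          rw [abs_of_nonpos (by linarith)]
          congr 1
          ring
        · rw [hNr x t (not_le.1 ht)]
          show g (K (x, _)) = _
          rw [hKb (x, _) hx]
          simp only [Function.comp]
          congr 3
          apply Subtype.ext
          have ht' := not_le.1 ht
          simp only [φ, coe_symm_eq]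
          rw [abs_of_nonneg (by linarith),
            projIcc_of_mem _ ⟨by linarith, by linarith [t.2.2]⟩,
            projIcc_of_mem _ ⟨by linarith [t.2.2], by linarith⟩]
    refine ⟨⟨fun x => K (x, 1), hK.comp (continuous_id.prodMk continuous_const)⟩, fun x => ?_,
      ⟨N', hN'⟩, fun x => ?_, fun x => ?_, fun x hx t => ?_⟩
    · show K (x.1, 1) = _
      rw [hKb (x.1, 1) x.2]
      simp [hP0 x.1 x.2, hae x]
    · show N' (x, 0) = _
      rw [hN'0, hN0, hM0]
    · show N' (x, 1) = _
      rw [hN'1, hN1]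
      rfl
    · show N' (x, t) = _
      rw [hN'b x hx t]
      simp [hP0 x hx, hae ⟨x, hx⟩, hG ⟨x, hx⟩]
  · have : IsEmpty (bd ι) := ⟨fun x => by obtain ⟨j, -⟩ := x.2; exact hι0.elim j⟩
    obtain ⟨l, -⟩ := hgf.extends_top ι hι
      ⟨isEmptyElim, continuous_of_discreteTopology⟩ G fun x => isEmptyElim x
    exact ⟨ContinuousMap.comp ⟨f, cf⟩ l, fun x => isEmptyElim x⟩
  · let p₀ : bd ι := ⟨fun _ => 0, hι0.some, Or.inl rfl⟩
    obtain ⟨a', ha', hae⟩ := exists_total a (a p₀)
    obtain ⟨b, P, hP, hP0, hP1⟩ := hf.liftBd hι.le ha'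
    obtain ⟨l, hl⟩ := hgf.flex_top hι b G (P := g ∘ P) (cg.comp_continuousOn hP)
      (fun x hx => by simp [hP0 x hx, hae ⟨x, hx⟩, hG ⟨x, hx⟩]) (fun x => by simp [hP1 x])
    obtain ⟨K, hK, -, -, hKb⟩ := hep (U := univ) (cf.comp l.continuous) (fun _ => mem_univ _)
      (M := fun p => P (p.1, unitInterval.symm p.2))
      (hP.comp (continuous_fst.prodMk (unitInterval.continuous_symm.comp continuous_snd)).continuousOn
        fun p hp => hp)
      (fun _ _ => mem_univ _) (fun x hx => by simp [hP1 ⟨x, hx⟩, hl ⟨x, hx⟩])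
    refine ⟨⟨fun x => K (x, 1), hK.comp (continuous_id.prodMk continuous_const)⟩, fun x => ?_⟩
    show K (x.1, 1) = _
    rw [hKb (x.1, 1) x.2]
    simp [hP0 x.1 x.2, hae x]

end Vale.Agent.P259.Top
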