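import Vale.Agent.P259.Top.Conn

/-!
# Connected spaces and homotopy fibres (P259)
-/

namespace Vale.Agent.P259.Top

open Set unitInterval

noncomputable section

variable {E B : Type} [TopologicalSpace E] [TopologicalSpace B]

/-- The homotopy fibre. -/
abbrev HFib (p : C(E, B)) (b : B) : Type :=
  {q : E × C(I, B) // q.2 0 = p q.1 ∧ q.2 1 = b}

/-- The fibre inclusion. -/
def fibIncl (p : C(E, B)) (b : B) : C({e : E // p e = b}, HFib p b) :=
  ⟨fun e => ⟨(e.1, ContinuousMap.const I b), e.2.symm, rfl⟩,
    Continuous.subtype_mk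
      (continuous_subtype_val.prodMk (continuous_const (y := ContinuousMap.const I b))) _⟩

/-- Connected homotopy fibres give compression in all dimensions up to `n`. -/
theorem compress_of_hfib {n : ℕ} (p : C(E, B))
    (h : ∀ b, ∃ b', Joined b b' ∧ Conn n (HFib p b')) (ι : Type) [Fintype ι]
    (hι : Fintype.card ι ≤ n) (a : C(bd ι, E)) (G : C(ι → I, B)) (hG : Lifts p a G) :
    ∃ g : C(ι → I, E), (∀ x : bd ι, g x = a x) ∧
      ∃ M : C((ι → I) × I, B), (∀ x, M (x, 0) = G x) ∧ (∀ x, M (x, 1) = p (g x)) ∧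
        ∀ x ∈ bd ι, ∀ t, M (x, t) = G x := by
  obtain ⟨b', ⟨γ⟩, hC⟩ := h (G fun _ => 0)
  let R : (ι → I) × I → (ι → I) := fun q j => q.1 j * σ q.2
  have hR : Continuous R := continuous_pi fun j => Continuous.subtype_mk
    ((continuous_subtype_val.comp ((continuous_apply j).comp continuous_fst)).mul
      (continuous_subtype_val.comp (continuous_symm.comp continuous_snd))) _
  obtain ⟨K, hK, hK0, hK1, -, -⟩ := concat (G.continuous.comp hR)
    (N := fun q : (ι → I) × I => γ q.2) (γ.continuous.comp continuous_snd) fun x => by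
      show G (R (x, 1)) = γ 0
      rw [γ.source]
      congr 1
      funext j
      simp [R]
  have hK0' : ∀ x, K (x, 0) = G x := fun x => by rw [hK0]; simp [R]
  have hK1' : ∀ x, K (x, 1) = b' := fun x => by rw [hK1]; exact γ.target
  let Kc : C((ι → I) × I, B) := ⟨K, hK⟩
  let a' : C(bd ι, HFib p b') :=
    ⟨fun x => ⟨(a x, Kc.curry x.1), (hK0' x.1).trans (hG x), hK1' x.1⟩,
      (a.continuous.prodMk (Kc.curry.continuous.comp continuous_subtype_val)).subtype_mk _⟩
  obtain ⟨L, hL⟩ := hC ι hι a'
  let g : C(ι → I, E) :=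
    ⟨fun x => (L x).1.1, continuous_fst.comp (continuous_subtype_val.comp L.continuous)⟩
  let q : C(ι → I, C(I, B)) :=
    ⟨fun x => (L x).1.2, continuous_snd.comp (continuous_subtype_val.comp L.continuous)⟩
  refine ⟨g, fun x => congrArg (fun y : HFib p b' => y.1.1) (hL x), ?_⟩
  obtain ⟨N, hN, hN0, hN1, hNl, hNr⟩ := concat hK
    (N := fun z : (ι → I) × I => q z.1 (σ z.2))
    (continuous_eval.comp ((q.continuous.comp continuous_fst).prodMk
      (continuous_symm.comp continuous_snd))) fun x => by
        show K (x, 1) = q x (σ 0)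
        rw [hK1', symm_zero]
        exact ((L x).2.2).symm
  have hside : ∀ x ∈ bd ι, ∀ t, q x t = K (x, t) := fun x hx t =>
    congrArg (fun y : HFib p b' => y.1.2 t) (hL ⟨x, hx⟩)
  let φ : I → I := fun t => projIcc 0 1 zero_le_one (1 - |2 * (t : ℝ) - 1|)
  obtain ⟨N', hN', hN'0, hN'1, hN'b⟩ := adjust hN (P := K) hK.continuousOn
    (φ := φ) (ψ := fun _ => 0)
    (continuous_projIcc.comp (continuous_const.sub
      ((continuous_const.mul continuous_subtype_val).sub continuous_const).abs))
    continuous_const (by simp [φ]) (by norm_num [φ]) fun x hx t => by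
      by_cases ht : (t : ℝ) ≤ 1 / 2
      · rw [hNl x t ht]
        congr 2
        simp only [φ]
        rw [abs_of_nonpos (by linarith)]
        congr 1
        ring
      · rw [hNr x t (not_le.1 ht)]
        show q x _ = _
        rw [hside x hx]
        congr 2
        apply Subtype.ext
        have ht' := not_le.1 ht
        simp only [φ, coe_symm_eq]
        rw [abs_of_nonneg (by linarith),
          projIcc_of_mem _ ⟨by linarith, by linarith [t.2.2]⟩,
          projIcc_of_mem _ ⟨by linarith [t.2.2], by linarith⟩]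
  refine ⟨⟨N', hN'⟩, fun x => ?_, fun x => ?_, fun x hx t => ?_⟩
  · show N' (x, 0) = _
    rw [hN'0, hN0, hK0']
  · show N' (x, 1) = _
    rw [hN'1, hN1, symm_one]
    exact (L x).2.1
  · show N' (x, t) = _
    rw [hN'b x hx t, hK0']

/-- Highly connected homotopy fibres make a map good. -/
theorem Good.of_hfib {n : ℕ} (p : C(E, B))
    (h : ∀ b, ∃ b', Joined b b' ∧ Conn n (HFib p b')) : Good n p :=
  ⟨fun ι _ hι a G hG => compress_of_hfib p h ι hι.le a G hG,
    fun ι _ hι a G hG =>
      let ⟨g, hg, _⟩ := compress_of_hfib p h ι hι.le a G hG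
      ⟨g, hg⟩⟩

/-- The projection away from a connected factor is a weak equivalence. -/
theorem WeakEq.snd {Z : Type} [TopologicalSpace Z] (hE : ∀ n, Conn n E) :
    WeakEq (Prod.snd : E × Z → Z) := by
  intro n
  refine ⟨fun ι _ hι a G hG => ?_, fun ι _ hι a G hG => ?_⟩ <;>
    obtain ⟨l, hl⟩ := hE _ ι le_rfl (ContinuousMap.fst.comp a)
  · refine ⟨l.prodMk G, fun x => Prod.ext (hl x) (hG x), ⟨fun q => G q.1, G.continuous.comp continuous_fst⟩,
      fun x => rfl, fun x => rfl, fun x _ t => rfl⟩
  · exact ⟨l.prodMk G, fun x => Prod.ext (hl x) (hG x)⟩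

/-- Time course of going out and back and on, as a reparametrisation of `M.trans q`. -/
def back (t : I) : ℝ := max (1 / 2 - (t : ℝ)) (2 * (t : ℝ) - 1)

theorem back_mem (t : I) : 0 ≤ back t ∧ back t ≤ 1 := by
  refine ⟨?_, max_le (by linarith [t.2.1]) (by linarith [t.2.2])⟩
  rcases le_total (t : ℝ) (1 / 2) with h | h
  · exact le_max_of_le_left (by linarith)
  · exact le_max_of_le_right (by linarith)

theorem symm_trans_trans {u v w : B} (M : Path u v) (q : Path v w) (t : I) :
    M.symm.trans (M.trans q) t = M.trans q (projIcc 0 1 zero_le_one (back t)) := by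
  have hv : ((projIcc 0 1 zero_le_one (back t) : I) : ℝ) = back t := by
    rw [projIcc_of_mem _ (back_mem t)]
  rcases le_or_gt (t : ℝ) (1 / 2) with h | h
  · have hb : back t = 1 / 2 - (t : ℝ) := max_eq_left (by linarith)
    rw [Path.trans_apply, dif_pos h, Path.symm_apply, Path.trans_apply,
      dif_pos (by rw [projIcc_of_mem _ (back_mem t)]; show back t ≤ 1 / 2; rw [hb]; linarith [t.2.1])]
    show M (σ _) = M _
    congr 1
    apply Subtype.ext
    simp only [coe_symm_eq, hv]
    simp only [hb]
    ring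
  · have hb : back t = 2 * (t : ℝ) - 1 := max_eq_right (by linarith)
    rw [Path.trans_apply, dif_neg (not_le.2 h)]
    congr 1
    apply Subtype.ext
    rw [hv, hb]

theorem trans_second {u v w : B} (M : Path u v) (q : Path v w) (t : I) :
    M.trans q (projIcc 0 1 zero_le_one (1 / 2 + (t : ℝ) / 2)) = q t := by
  have hm : (1 / 2 + (t : ℝ) / 2) ∈ Icc (0 : ℝ) 1 := ⟨by linarith [t.2.1], by linarith [t.2.2]⟩
  rw [Path.trans_apply]
  split_ifs with h
  · have ht : t = 0 := by
      apply Subtype.ext
      rw [projIcc_of_mem _ hm] at h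
      have h' : (1 / 2 + (t : ℝ) / 2) ≤ 1 / 2 := h
      show (t : ℝ) = 0
      linarith [t.2.1]
    subst ht
    rw [q.source]
    convert M.target using 2
    apply Subtype.ext
    show (2 : ℝ) * _ = 1
    rw [projIcc_of_mem _ hm]
    show (2 : ℝ) * (1 / 2 + ((0 : I) : ℝ) / 2) = 1
    simp
  · congr 1
    apply Subtype.ext
    simp only [projIcc_of_mem _ hm]
    ring

/-- Going back along a family of paths and out again is homotopic to the identity. -/
theorem exists_retrace {T : Type*} [TopologicalSpace T] {u v w : T → B}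
    (M : ∀ x, Path (u x) (v x)) (hM : Continuous ↿M) (q : ∀ x, Path (v x) (w x))
    (hq : Continuous ↿q) :
    ∃ H : C(I × T, C(I, B)), (∀ x, H (0, x) = ((M x).symm.trans ((M x).trans (q x))).toContinuousMap) ∧
      (∀ x, H (1, x) = (q x).toContinuousMap) ∧
      (∀ s x, H (s, x) 0 = v x) ∧ ∀ s x, H (s, x) 1 = w x := by
  have hΛ := Path.trans_continuous_family M hM q hq
  have hb : Continuous back := by unfold back; fun_prop
  let F : C((I × T) × I, B) :=
    ⟨fun z => (M z.1.2).trans (q z.1.2) (projIcc 0 1 zero_le_one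
      ((1 - (z.1.1 : ℝ)) * back z.2 + (z.1.1 : ℝ) * (1 / 2 + (z.2 : ℝ) / 2))),
      hΛ.comp ((continuous_snd.comp continuous_fst).prodMk
        ((continuous_projIcc (h := (zero_le_one : (0 : ℝ) ≤ 1))).comp (by fun_prop)))⟩
  refine ⟨F.curry, fun x => ?_, fun x => ?_, fun s x => ?_, fun s x => ?_⟩
  · ext t
    show F ((0, x), t) = _
    simp only [F, ContinuousMap.coe_mk]
    rw [show ((1 - ((0 : I) : ℝ)) * back t + ((0 : I) : ℝ) * (1 / 2 + (t : ℝ) / 2)) = back t by simp]
    exact (symm_trans_trans (M x) (q x) t).symm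
  · ext t
    show F ((1, x), t) = _
    simp only [F, ContinuousMap.coe_mk]
    rw [show ((1 - ((1 : I) : ℝ)) * back t + ((1 : I) : ℝ) * (1 / 2 + (t : ℝ) / 2)) =
      1 / 2 + (t : ℝ) / 2 by simp]
    exact trans_second (M x) (q x) t
  · show F ((s, x), 0) = _
    simp only [F, ContinuousMap.coe_mk]
    rw [show ((1 - (s : ℝ)) * back 0 + (s : ℝ) * (1 / 2 + ((0 : I) : ℝ) / 2)) =
      1 / 2 + ((0 : I) : ℝ) / 2 by norm_num [back]; ring]
    exact (trans_second (M x) (q x) 0).trans (q x).source
  · show F ((s, x), 1) = _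
    simp only [F, ContinuousMap.coe_mk]
    rw [show ((1 - (s : ℝ)) * back 1 + (s : ℝ) * (1 / 2 + ((1 : I) : ℝ) / 2)) =
      1 / 2 + ((1 : I) : ℝ) / 2 by norm_num [back]]
    exact (trans_second (M x) (q x) 1).trans (q x).target

/-- The homotopy fibre of a null homotopic map out of a contractible space. -/
theorem exists_hfib_paths (p : C(E, B)) (hE : ∀ n, Conn n E) (b : B) (N : ∀ e, Path b (p e))
    (hN : Continuous fun q : E × I => N q.1 q.2) (y : B) :
    ∃ θ : C(HFib p y, Path b y), WeakEq θ ∧
      ∀ (q : HFib p y) (γ : Path (p q.1.1) y), (∀ t, γ t = q.1.2 t) →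
        θ q = (N q.1.1).trans γ := by
  let pth : ∀ q : HFib p y, Path (p q.1.1) y := fun q => ⟨q.1.2, q.2.1, q.2.2⟩
  have hpth : Continuous ↿pth := continuous_eval.comp
    (((continuous_snd.comp continuous_subtype_val).comp continuous_fst).prodMk continuous_snd)
  have hN1 : Continuous ↿(fun q : HFib p y => N q.1.1) :=
    hN.comp (((continuous_fst.comp continuous_subtype_val).comp continuous_fst).prodMk continuous_snd)
  let θ : C(HFib p y, Path b y) :=
    ⟨fun q => (N q.1.1).trans (pth q),
      Path.continuous_uncurry_iff.1 (Path.trans_continuous_family _ hN1 _ hpth)⟩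
  have hN2 : Continuous ↿(fun z : E × Path b y => N z.1) :=
    hN.comp ((continuous_fst.comp continuous_fst).prodMk continuous_snd)
  have hγ : Continuous ↿(fun z : E × Path b y => z.2) :=
    Path.continuous_uncurry_iff.2 continuous_snd
  let Φ : C(HFib p y, E × Path b y) :=
    ⟨fun q => (q.1.1, θ q), (continuous_fst.comp continuous_subtype_val).prodMk θ.continuous⟩
  let bk : C((E × Path b y) × I, B) :=
    ⟨_, Path.trans_continuous_family _ (Path.symm_continuous_family _ hN2) _ hγ⟩
  let Ψ : C(E × Path b y, HFib p y) :=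
    ⟨fun z => ⟨(z.1, bk.curry z), ((N z.1).symm.trans z.2).source,
      ((N z.1).symm.trans z.2).target⟩, (continuous_fst.prodMk bk.curry.continuous).subtype_mk _⟩
  have hl : (Ψ.comp Φ).Homotopic (ContinuousMap.id _) := by
    obtain ⟨H, H0, H1, Hs, Ht⟩ := exists_retrace (fun q : HFib p y => N q.1.1) hN1 pth hpth
    refine ⟨{ toFun := fun z => ⟨(z.2.1.1, H z), Hs z.1 z.2, Ht z.1 z.2⟩
              continuous_toFun :=
                ((continuous_fst.comp (continuous_subtype_val.comp continuous_snd)).prodMk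
                  H.continuous).subtype_mk _
              map_zero_left := fun q => Subtype.ext (Prod.ext rfl ((H0 q).trans ?_))
              map_one_left := fun q => Subtype.ext (Prod.ext rfl ((H1 q).trans ?_)) }⟩
    · rfl
    · rfl
  have hr : (Φ.comp Ψ).Homotopic (ContinuousMap.id _) := by
    obtain ⟨H, H0, H1, Hs, Ht⟩ := exists_retrace (fun z : E × Path b y => (N z.1).symm)
      (Path.symm_continuous_family _ hN2) (fun z => z.2) hγ
    refine ⟨{ toFun := fun z => (z.2.1, ⟨H z, Hs z.1 z.2, Ht z.1 z.2⟩)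
              continuous_toFun := (continuous_fst.comp continuous_snd).prodMk
                (continuous_induced_rng.2 H.continuous)
              map_zero_left := fun z => Prod.ext rfl (Path.ext ?_)
              map_one_left := fun z => Prod.ext rfl (Path.ext ?_) }⟩
    · show ⇑(H (0, z)) = _
      rw [H0, Path.symm_symm]
      rfl
    · show ⇑(H (1, z)) = _
      rw [H1]
      rfl
  refine ⟨θ, fun n => ?_, fun q γ hγq => ?_⟩
  · exact Good.comp (g := (Prod.snd : E × Path b y → Path b y)) (WeakEq.snd hE n)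
      (WeakEq.of_homotopyEquiv ⟨Φ, Ψ, hl, hr⟩ n) Φ.continuous continuous_snd
  · show (N q.1.1).trans (pth q) = _
    rw [show pth q = γ from Path.ext (funext fun t => (hγq t).symm)]

end

end Vale.Agent.P259.Top
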