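import Vale.Agent.P259.Top.Lifting
import Vale.Agent.P259.Top.Space

/-!
# The cover lifting theorem for homotopy fibres (P259)
-/

namespace Vale.Agent.P259.Top

open Set unitInterval

variable {E B : Type} [TopologicalSpace E] [TopologicalSpace B]

/-- `SubGood` gives a good inclusion. -/
theorem Good.inclusion {n : ℕ} {V W : Set E} (hVW : V ⊆ W) (h : SubGood n V W) :
    Good n (Set.inclusion hVW) := by
  refine ⟨fun ι _ hι a G hG => ?_, fun ι _ hι a G hG => ?_⟩
  all_goals
    have hg : Continuous fun x => (G x).1 := continuous_subtype_val.comp G.continuous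
    have hm : MapsTo (fun x => (G x).1) (bd ι) V := fun x hx => by
      show (G x).1 ∈ V
      rw [hG ⟨x, hx⟩]; exact (a ⟨x, hx⟩).2
  · obtain ⟨M, hM, hMW, hM0, hM1, hMb⟩ := h.compress ι hι _ hg (fun x => (G x).2) hm
    refine ⟨⟨fun x => ⟨M (x, 1), hM1 x⟩,
      (hM.comp (continuous_id.prodMk continuous_const)).subtype_mk _⟩,
      fun x => Subtype.ext ((hMb x.1 x.2 1).trans (congrArg Subtype.val (hG x))),
      ⟨fun p => ⟨M p, hMW p⟩, hM.subtype_mk _⟩, fun x => Subtype.ext (hM0 x),
      fun x => rfl, fun x hx t => Subtype.ext (hMb x hx t)⟩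
  · obtain ⟨g, hg', hgV, hge⟩ := h.extends_top ι hι _ hg (fun x => (G x).2) hm
    exact ⟨⟨fun x => ⟨g x, hgV x⟩, hg'.subtype_mk _⟩,
      fun x => Subtype.ext ((hge x.2).trans (congrArg Subtype.val (hG x)))⟩

/-- The homotopy fibre over a point, inside the one over a member. -/
def fibPaths (p : C(E, B)) {V : Set B} {c : B} (hc : c ∈ V) (q : HFib p c) : PathsTo p V :=
  ⟨q.1, q.2.1, by rw [q.2.2]; exact hc⟩

theorem continuous_fibPaths (p : C(E, B)) {V : Set B} {c : B} (hc : c ∈ V) :
    Continuous (fibPaths p hc) :=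
  continuous_subtype_val.subtype_mk _

/-- The endpoint of a path can be slid inside a weakly contractible member. -/
theorem WeakEq.fibPaths (p : C(E, B)) {V : Set B} (hV : Filler V) {c : B} (hc : c ∈ V) :
    WeakEq (fibPaths p hc) := by
  have main : ∀ (ι : Type) [Fintype ι] (a : C(bd ι, HFib p c)) (G : C(ι → I, PathsTo p V)),
      Lifts (Top.fibPaths p hc) a G → ∃ g : C(ι → I, HFib p c), (∀ x : bd ι, g x = a x) ∧
      ∃ M : C((ι → I) × I, PathsTo p V), (∀ x, M (x, 0) = G x) ∧
        (∀ x, M (x, 1) = Top.fibPaths p hc (g x)) ∧ ∀ x ∈ bd ι, ∀ t, M (x, t) = G x := by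
    intro ι _ a G hG
    have he : Continuous fun x => (G x).1.1 :=
      continuous_fst.comp (continuous_subtype_val.comp G.continuous)
    let Γ : C(ι → I, C(I, B)) :=
      ⟨fun x => (G x).1.2, continuous_snd.comp (continuous_subtype_val.comp G.continuous)⟩
    have hb : ∀ x ∈ bd ι, Γ x 1 = c := fun x hx => by
      show (G x).1.2 1 = c
      rw [hG ⟨x, hx⟩]; exact (a ⟨x, hx⟩).2.2
    obtain ⟨h, hh, hhV, hh0, hh1, hhb⟩ := hV.cylinder (f₀ := fun x => Γ x 1) (f₁ := fun _ => c)
      ((continuous_eval_const 1).comp Γ.continuous) continuous_const (fun x => (G x).2.2)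
      (fun _ => hc) (S := fun _ => c) continuousOn_const (fun _ _ => hc)
      (fun x hx => (hb x hx).symm) (fun _ _ => rfl)
    classical
    let F : (Option ι → I) → B := fun z => Γ (unopt z).1 (unopt z).2
    have hF : Continuous F := continuous_eval.comp ((Γ.continuous.comp
      (continuous_fst.comp continuous_unopt)).prodMk (continuous_snd.comp continuous_unopt))
    let S : (Option ι → I) × I → B :=
      fun w => if w.1 none = 1 then h ((unopt w.1).1, w.2) else F w.1
    have hS0 : ∀ w : (Option ι → I) × I, (w.1 none = 0 ∨ (unopt w.1).1 ∈ bd ι) → S w = F w.1 := by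
      intro w hw
      by_cases h1 : w.1 none = 1
      · have hx : (unopt w.1).1 ∈ bd ι := hw.resolve_left (by rw [h1]; exact one_ne_zero)
        simp only [S, if_pos h1]
        rw [hhb ((unopt w.1).1, w.2) hx, ← hb _ hx]
        show _ = Γ _ (w.1 none)
        rw [h1]
      · exact if_neg h1
    have hS : ContinuousOn S {w | w.1 ∈ bd (Option ι)} := by
      have : {w : (Option ι → I) × I | w.1 ∈ bd (Option ι)} =
          {w | w.1 none = 1} ∪ ({w | w.1 none = 0} ∪ {w | (unopt w.1).1 ∈ bd ι}) := by
        ext w; simp only [mem_setOf_eq, mem_union, mem_bd_option]; tauto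
      rw [this]
      have hc0 : IsClosed {w : (Option ι → I) × I | w.1 none = 0} :=
        isClosed_eq ((continuous_apply none).comp continuous_fst) continuous_const
      have hcb : IsClosed {w : (Option ι → I) × I | (unopt w.1).1 ∈ bd ι} :=
        (isClosed_bd ι).preimage (continuous_fst.comp (continuous_unopt.comp continuous_fst))
      exact ContinuousOn.union_of_isClosed
        ((hh.comp ((continuous_fst.comp (continuous_unopt.comp continuous_fst)).prodMk
          continuous_snd)).continuousOn.congr fun w hw => if_pos hw)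
        ((hF.comp continuous_fst).continuousOn.congr fun w hw => hS0 w hw)
        (isClosed_eq ((continuous_apply none).comp continuous_fst) continuous_const) (hc0.union hcb)
    obtain ⟨K, hK, -, hK0, hKb⟩ := hep (U := univ) hF (fun _ => mem_univ _) hS
      (fun _ _ => mem_univ _) fun z hz => by
        by_cases h1 : z none = 1
        · show (if z none = 1 then _ else _) = _
          rw [if_pos h1, hh0]
          show _ = Γ _ (z none)
          rw [h1]
        · exact if_neg h1
    let P : C((ι → I) × I, C(I, B)) := ContinuousMap.curry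
      ⟨fun w : ((ι → I) × I) × I => K (opt (w.1.1, w.2), w.1.2),
        hK.comp ((continuous_opt.comp ((continuous_fst.comp continuous_fst).prodMk
          continuous_snd)).prodMk (continuous_snd.comp continuous_fst))⟩
    have hP : ∀ x s r, P (x, s) r = K (opt (x, r), s) := fun _ _ _ => rfl
    have hPl : ∀ x s, P (x, s) 0 = p (G x).1.1 := fun x s => by
      rw [hP, hKb _ (mem_bd_option.2 (Or.inl rfl)), hS0 _ (Or.inl rfl)]
      exact (G x).2.1
    have hPr : ∀ x s, P (x, s) 1 = h (x, s) := fun x s => by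
      rw [hP, hKb _ (mem_bd_option.2 (Or.inr (Or.inl rfl)))]
      exact if_pos rfl
    have hPx : ∀ x ∈ bd ι, ∀ s, P (x, s) = Γ x := fun x hx s => ContinuousMap.ext fun r => by
      rw [hP, hKb (opt (x, r), s) (mem_bd_option.2 (Or.inr (Or.inr hx))),
        hS0 (opt (x, r), s) (Or.inr hx)]
      rfl
    refine ⟨⟨fun x => ⟨((G x).1.1, P (x, 1)), hPl x 1, (hPr x 1).trans (hh1 x)⟩,
      (he.prodMk (P.continuous.comp (continuous_id.prodMk continuous_const))).subtype_mk _⟩,
      fun x => ?_,
      ⟨fun w => ⟨((G w.1).1.1, P w), hPl w.1 w.2, by rw [hPr]; exact hhV _⟩,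
        ((he.comp continuous_fst).prodMk P.continuous).subtype_mk _⟩,
      fun x => ?_, fun x => rfl, fun x hx t => ?_⟩
    · apply Subtype.ext
      show ((G x).1.1, P (x.1, 1)) = (a x).1
      rw [hPx x.1 x.2 1]
      exact congrArg Subtype.val (hG x)
    · refine Subtype.ext (Prod.ext rfl (ContinuousMap.ext fun r => ?_))
      show P (x, 0) r = _
      rw [hP, hK0]
      rfl
    · exact Subtype.ext (Prod.ext rfl (hPx x hx t))
  intro n
  refine ⟨fun ι _ _ a G hG => main ι a G hG, fun ι _ _ a G hG => ?_⟩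
  obtain ⟨g, hg, -⟩ := main ι a G hG
  exact ⟨g, hg⟩

/-- **Cover lifting theorem.** Over a point minimal for a good cover, the fibre is the homotopy
fibre up to `n`-goodness. -/
theorem fibre_good {n : ℕ} (p : C(E, B)) {J : Type} (V : J → Set B) (hV : ∀ a, IsOpen (V a))
    (hcov : ∀ x, ∃ a, x ∈ V a)
    (hmerge : ∀ a b (K : Set B), K.Nonempty → IsPreconnected K → K ⊆ V a → K ⊆ V b →
      ∃ c, K ⊆ V c ∧ V c ⊆ V a ∧ V c ⊆ V b)
    (hfill : ∀ a, Filler (V a))
    (hincl : ∀ a b, V a ⊆ V b → SubGood n (p ⁻¹' V a) (p ⁻¹' V b))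
    (a : J) (c : B) (hc : c ∈ V a) (_hmin : ∀ b, c ∈ V b → V a ⊆ V b)
    (hfib : SubGood n (p ⁻¹' {c}) (p ⁻¹' V a)) : Good n (fibIncl p c) := by
  classical
  have hM : Members n p V := by
    refine ⟨hV, hcov, fun s S hs hS hne => ?_, hfill, hincl⟩
    induction hs using Finset.Nonempty.cons_induction with
    | singleton b => exact fun h => ⟨b, h b (Finset.mem_singleton_self b),
        fun d hd => by rw [Finset.mem_singleton.1 hd]⟩
    | cons b s hb hs ih =>
      intro h
      obtain ⟨d, hd, hds⟩ := ih fun e he => h e (Finset.mem_cons_of_mem he)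
      obtain ⟨e, he, hed, heb⟩ := hmerge d b S hne hS hd (h b (Finset.mem_cons_self b s))
      refine ⟨e, he, fun f hf => ?_⟩
      rcases Finset.mem_cons.1 hf with rfl | hf
      · exact heb
      · exact hed.trans (hds f hf)
  have hsub : p ⁻¹' {c} ⊆ p ⁻¹' V a := preimage_mono (singleton_subset_iff.2 hc)
  have hfg : Good n (toPaths p (V a) ∘ Set.inclusion hsub) :=
    Good.comp (hM.good_fibre p.continuous a) (Good.inclusion hsub hfib)
      (continuous_inclusion hsub) (continuous_toPaths p.continuous (V a))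
  have heq : Top.fibPaths p hc ∘ fibIncl p c = toPaths p (V a) ∘ Set.inclusion hsub := by
    funext e
    refine Subtype.ext (Prod.ext rfl (ContinuousMap.ext fun r => ?_))
    exact e.2.symm
  rw [← heq] at hfg
  exact hfg.of_comp_left (WeakEq.fibPaths p (hfill a) hc n) (continuous_fibPaths p hc)
    (fibIncl p c).continuous

end Vale.Agent.P259.Top
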