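import Vale.Agent.P259.Top.Good
import Mathlib.Data.Fintype.Option
import Mathlib.Data.Fintype.Card
import Mathlib.Topology.Homotopy.Basic
import Mathlib.Topology.Homotopy.Equiv

/-!
# Calculus of good maps: composition, two out of three, homotopy invariance (P259)
-/

namespace Vale.Agent.P259.Top

open Set unitInterval

universe u v w

variable {A : Type u} {B : Type v} {C : Type w}
  [TopologicalSpace A] [TopologicalSpace B] [TopologicalSpace C]
variable {ι : Type}

/-- Boundary and open cylinder coordinates as one cube. -/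
def unopt (z : Option ι → I) : (ι → I) × I := (fun i => z (some i), z none)

/-- Inverse of `unopt`. -/
def opt (p : (ι → I) × I) : Option ι → I := fun o => o.elim p.2 p.1

@[simp] theorem unopt_opt (p : (ι → I) × I) : unopt (opt p) = p := rfl

theorem continuous_unopt : Continuous (unopt (ι := ι)) :=
  (continuous_pi fun i => continuous_apply (some i)).prodMk (continuous_apply none)

theorem continuous_opt : Continuous (opt (ι := ι)) := by
  refine continuous_pi fun o => ?_
  cases o with
  | none => exact continuous_snd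
  | some i => exact (continuous_apply i).comp continuous_fst

theorem mem_bd_option {z : Option ι → I} :
    z ∈ bd (Option ι) ↔ z none = 0 ∨ z none = 1 ∨ (unopt z).1 ∈ bd ι := by
  simp only [bd, Set.mem_ofPred_eq, Option.exists, unopt, or_assoc]

/-- A map on a closed subset, as a total function. -/
theorem exists_total {T : Type*} [TopologicalSpace T] {s : Set T} (f : C(s, B)) (b : B) :
    ∃ F : T → B, ContinuousOn F s ∧ ∀ x : s, F x = f x := by
  classical
  refine ⟨fun x => if h : x ∈ s then f ⟨x, h⟩ else b, ?_, fun x => by simp [x.2]⟩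
  rw [continuousOn_iff_continuous_domRestrict]
  convert f.continuous using 1
  funext x
  simp [Set.domRestrict, x.2]

/-- Concatenation of two homotopies. -/
theorem concat {T : Type*} [TopologicalSpace T] {M N : T × I → B} (hM : Continuous M)
    (hN : Continuous N) (h : ∀ x, M (x, 1) = N (x, 0)) :
    ∃ K : T × I → B, Continuous K ∧ (∀ x, K (x, 0) = M (x, 0)) ∧ (∀ x, K (x, 1) = N (x, 1)) ∧
      (∀ x (t : I), (t : ℝ) ≤ 1 / 2 → K (x, t) = M (x, projIcc 0 1 zero_le_one (2 * (t : ℝ)))) ∧
      ∀ x (t : I), 1 / 2 < (t : ℝ) → K (x, t) = N (x, projIcc 0 1 zero_le_one (2 * (t : ℝ) - 1)) := by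
  let K : T × I → B := fun p => if (p.2 : ℝ) ≤ 1 / 2
    then M (p.1, projIcc 0 1 zero_le_one (2 * (p.2 : ℝ)))
    else N (p.1, projIcc 0 1 zero_le_one (2 * (p.2 : ℝ) - 1))
  have ht : Continuous fun p : T × I => (p.2 : ℝ) := continuous_subtype_val.comp continuous_snd
  refine ⟨K, ?_, fun x => ?_, fun x => ?_, fun x t h => if_pos h, fun x t h => if_neg (not_le.2 h)⟩
  · refine continuous_if_le ht continuous_const
      (hM.comp (continuous_fst.prodMk (continuous_projIcc.comp (continuous_const.mul ht)))).continuousOn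
      (hN.comp (continuous_fst.prodMk (continuous_projIcc.comp
        ((continuous_const.mul ht).sub continuous_const)))).continuousOn fun p hp => ?_
    rw [hp]
    convert h p.1 using 3 <;> norm_num
  · have h0 : ((0 : I) : ℝ) ≤ 1 / 2 := by norm_num
    simp only [K, if_pos h0]
    congr 2
    simp
  · have h1 : ¬ ((1 : I) : ℝ) ≤ 1 / 2 := by norm_num
    simp only [K, if_neg h1]
    congr 2
    norm_num

/-- Change the time course of a homotopy on the boundary. -/
theorem adjust_in [Fintype ι] {U : Set B} {N : (ι → I) × I → B} (hN : Continuous N)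
    (hNU : ∀ p, N p ∈ U) {P : (ι → I) × I → B} (hPU : ∀ p, p.1 ∈ bd ι → P p ∈ U)
    (hP : ContinuousOn P {p | p.1 ∈ bd ι}) {φ ψ : I → I} (hφ : Continuous φ) (hψ : Continuous ψ)
    (h0 : φ 0 = ψ 0) (h1 : φ 1 = ψ 1) (hb : ∀ x ∈ bd ι, ∀ t, N (x, t) = P (x, φ t)) :
    ∃ N' : (ι → I) × I → B, Continuous N' ∧ (∀ p, N' p ∈ U) ∧ (∀ x, N' (x, 0) = N (x, 0)) ∧
      (∀ x, N' (x, 1) = N (x, 1)) ∧ ∀ x ∈ bd ι, ∀ t, N' (x, t) = P (x, ψ t) := by
  classical
  let γ : I × I → I := fun q => projIcc 0 1 zero_le_one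
    ((1 - (q.2 : ℝ)) * (φ q.1 : ℝ) + (q.2 : ℝ) * (ψ q.1 : ℝ))
  have hγ : Continuous γ := continuous_projIcc.comp
    (((continuous_const.sub (continuous_subtype_val.comp continuous_snd)).mul
      (continuous_subtype_val.comp (hφ.comp continuous_fst))).add
      ((continuous_subtype_val.comp continuous_snd).mul
      (continuous_subtype_val.comp (hψ.comp continuous_fst))))
  have γeq : ∀ t s, φ t = ψ t → γ (t, s) = φ t := fun t s h => by
    simp only [γ, ← h]
    rw [show (1 - (s : ℝ)) * (φ t : ℝ) + (s : ℝ) * (φ t : ℝ) = (φ t : ℝ) by ring]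
    exact projIcc_val _ _
  let M : (Option ι → I) × I → B := fun q =>
    if (unopt q.1).1 ∈ bd ι then P ((unopt q.1).1, γ ((unopt q.1).2, q.2)) else N (unopt q.1)
  have hends : ∀ q : (Option ι → I) × I, (q.1 none = 0 ∨ q.1 none = 1) →
      M q = N (unopt q.1) := by
    intro q hq
    by_cases h : (unopt q.1).1 ∈ bd ι
    · simp only [M, if_pos h]
      rw [γeq, ← hb _ h]
      rcases hq with hq | hq <;> simp only [unopt, hq] <;> first | exact h0 | exact h1
    · simp [M, h]
  have hM : ContinuousOn M {q | q.1 ∈ bd (Option ι)} := by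
    have : {q : (Option ι → I) × I | q.1 ∈ bd (Option ι)} =
        {q | (unopt q.1).1 ∈ bd ι} ∪ ({q | q.1 none = 0} ∪ {q | q.1 none = 1}) := by
      ext q; simp only [Set.mem_ofPred_eq, mem_bd_option, Set.mem_union]; tauto
    rw [this]
    have hc : Continuous fun q : (Option ι → I) × I => q.1 none :=
      (continuous_apply none).comp continuous_fst
    refine ContinuousOn.union_of_isClosed ?_ ?_
      ((isClosed_bd ι).preimage (continuous_fst.comp (continuous_unopt.comp continuous_fst)))
      ((isClosed_eq hc continuous_const).union (isClosed_eq hc continuous_const))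
    · have hc' : Continuous fun q : (Option ι → I) × I =>
          (((unopt q.1).1, γ ((unopt q.1).2, q.2)) : (ι → I) × I) :=
        (continuous_fst.comp (continuous_unopt.comp continuous_fst)).prodMk
          (hγ.comp ((continuous_snd.comp (continuous_unopt.comp continuous_fst)).prodMk continuous_snd))
      exact (hP.comp hc'.continuousOn fun q hq => hq).congr fun q hq => if_pos hq
    · exact (hN.comp (continuous_unopt.comp continuous_fst)).continuousOn.congr hends
  obtain ⟨g, hg, hgU, hg0, hgb⟩ := hep (U := U) (hN.comp continuous_unopt) (fun _ => hNU _)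
    hM (fun q _ => by
      by_cases h : (unopt q.1).1 ∈ bd ι
      · simp only [M, if_pos h]; exact hPU _ h
      · simp only [M, if_neg h]; exact hNU _) fun z hz => by
      rcases mem_bd_option.1 hz with h | h | h
      · exact hends _ (Or.inl h)
      · exact hends _ (Or.inr h)
      · simp only [M, if_pos h, Function.comp]
        rw [show γ ((unopt z).2, 0) = φ (unopt z).2 by simp [γ]]
        exact (hb _ h _).symm
  refine ⟨fun p => g (opt p, 1), hg.comp (continuous_opt.prodMk continuous_const),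
    fun p => hgU _, fun x => ?_, fun x => ?_, fun x hx t => ?_⟩
  · show g (opt (x, 0), 1) = _
    rw [hgb (opt (x, 0), 1) (mem_bd_option.2 (Or.inl rfl)), hends _ (Or.inl rfl), unopt_opt]
  · show g (opt (x, 1), 1) = _
    rw [hgb (opt (x, 1), 1) (mem_bd_option.2 (Or.inr (Or.inl rfl))), hends _ (Or.inr rfl), unopt_opt]
  · show g (opt (x, t), 1) = _
    rw [hgb (opt (x, t), 1) (mem_bd_option.2 (Or.inr (Or.inr hx)))]
    have hx' : (unopt (opt (x, t))).1 ∈ bd ι := hx
    simp only [M, if_pos hx']
    show P (x, γ (t, 1)) = _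
    simp [γ]

/-- `adjust_in` without the target set. -/
theorem adjust [Fintype ι] {N : (ι → I) × I → B} (hN : Continuous N) {P : (ι → I) × I → B}
    (hP : ContinuousOn P {p | p.1 ∈ bd ι}) {φ ψ : I → I} (hφ : Continuous φ) (hψ : Continuous ψ)
    (h0 : φ 0 = ψ 0) (h1 : φ 1 = ψ 1) (hb : ∀ x ∈ bd ι, ∀ t, N (x, t) = P (x, φ t)) :
    ∃ N' : (ι → I) × I → B, Continuous N' ∧ (∀ x, N' (x, 0) = N (x, 0)) ∧
      (∀ x, N' (x, 1) = N (x, 1)) ∧ ∀ x ∈ bd ι, ∀ t, N' (x, t) = P (x, ψ t) :=
  let ⟨N', h, _, h'⟩ := adjust_in (U := univ) hN (fun _ => mem_univ _) (fun _ _ => mem_univ _)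
    hP hφ hψ h0 h1 hb
  ⟨N', h, h'⟩

variable {f : A → B} {g : B → C} {n : ℕ}

/-- Compression where the boundary only commutes up to a given homotopy. -/
theorem Good.flex (hf : Good n f) [Fintype ι] (hι : Fintype.card ι < n) (a : C(bd ι, A))
    (G : C(ι → I, B)) {P : (ι → I) × I → B} (hP : ContinuousOn P {p | p.1 ∈ bd ι})
    (hP0 : ∀ x ∈ bd ι, P (x, 0) = G x) (hP1 : ∀ x : bd ι, P (x.1, 1) = f (a x)) :
    ∃ l : C(ι → I, A), (∀ x : bd ι, l x = a x) ∧ ∃ M : C((ι → I) × I, B),
      (∀ x, M (x, 0) = G x) ∧ (∀ x, M (x, 1) = f (l x)) ∧ ∀ x ∈ bd ι, ∀ t, M (x, t) = P (x, t) := by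
  obtain ⟨Pb, hPb, -, h0, hb⟩ := hep (U := univ) G.continuous (fun _ => mem_univ _) hP
    (fun _ _ => mem_univ _) hP0
  obtain ⟨l, hl, M, hM0, hM1, hMb⟩ := hf.compress ι hι a
    ⟨fun x => Pb (x, 1), hPb.comp (continuous_id.prodMk continuous_const)⟩
    fun x => (hb (x.1, 1) x.2).trans (hP1 x)
  obtain ⟨K, hK, hK0, hK1, hKl, hKr⟩ := concat hPb M.continuous fun x => (hM0 x).symm
  have hφ : Continuous fun t : I => projIcc (0 : ℝ) 1 zero_le_one (2 * (t : ℝ)) :=
    continuous_projIcc.comp (continuous_const.mul continuous_subtype_val)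
  obtain ⟨N, hN, hN0, hN1, hNb⟩ := adjust hK hP hφ continuous_id (by simp) (by norm_num)
    fun x hx t => by
      by_cases ht : (t : ℝ) ≤ 1 / 2
      · rw [hKl x t ht]; exact hb _ hx
      · rw [hKr x t (not_le.1 ht), hMb x hx]
        show Pb (x, 1) = _
        rw [hb _ hx]
        congr 2
        exact (projIcc_of_right_le _ (by linarith [not_le.1 ht])).symm
  refine ⟨l, hl, ⟨N, hN⟩, fun x => ?_, fun x => ?_, hNb⟩
  · show N (x, 0) = _
    rw [hN0, hK0, h0]
  · show N (x, 1) = _
    rw [hN1, hK1, hM1]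

/-- Extension where the boundary only commutes up to a given homotopy. -/
theorem Good.flex_top (hf : Good n f) [Fintype ι] (hι : Fintype.card ι = n) (a : C(bd ι, A))
    (G : C(ι → I, B)) {P : (ι → I) × I → B} (hP : ContinuousOn P {p | p.1 ∈ bd ι})
    (hP0 : ∀ x ∈ bd ι, P (x, 0) = G x) (hP1 : ∀ x : bd ι, P (x.1, 1) = f (a x)) :
    ∃ l : C(ι → I, A), ∀ x : bd ι, l x = a x := by
  obtain ⟨Pb, hPb, -, -, hb⟩ := hep (U := univ) G.continuous (fun _ => mem_univ _) hP
    (fun _ _ => mem_univ _) hP0
  exact hf.extends_top ι hι a ⟨fun x => Pb (x, 1), hPb.comp (continuous_id.prodMk continuous_const)⟩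
    fun x => (hb (x.1, 1) x.2).trans (hP1 x)

theorem Good.comp (hg : Good n g) (hf : Good n f) (cf : Continuous f) (cg : Continuous g) :
    Good n (g ∘ f) := by
  refine ⟨fun ι _ hι a G hG => ?_, fun ι _ hι a G hG => ?_⟩
  · obtain ⟨b, hb, M, hM0, hM1, hMb⟩ :=
      hg.compress ι hι (ContinuousMap.comp ⟨f, cf⟩ a) G hG
    obtain ⟨l, hl, N, hN0, hN1, hNb⟩ := hf.compress ι hι a b hb
    obtain ⟨K, hK, hK0, hK1, hKl, hKr⟩ := concat M.continuous (cg.comp N.continuous)
      fun x => by simp [hM1, hN0]
    refine ⟨l, hl, ⟨K, hK⟩, fun x => (hK0 x).trans (hM0 x), fun x => ?_, fun x hx t => ?_⟩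
    · show K (x, 1) = _
      simp [hK1, hN1]
    · show K (x, t) = _
      by_cases ht : (t : ℝ) ≤ 1 / 2
      · rw [hKl x t ht, hMb x hx]
      · rw [hKr x t (not_le.1 ht)]
        show g (N (x, _)) = _
        rw [hNb x hx, hb ⟨x, hx⟩, hG ⟨x, hx⟩]
        rfl
  · obtain ⟨b, hb⟩ := hg.extends_top ι hι (ContinuousMap.comp ⟨f, cf⟩ a) G hG
    exact hf.extends_top ι hι a b hb

theorem Good.id' : Good n (id : A → A) :=
  ⟨fun _ _ _ a G hG => ⟨G, hG, ⟨fun p => G p.1, G.continuous.comp continuous_fst⟩,
    fun _ => rfl, fun _ => rfl, fun _ _ _ => rfl⟩, fun _ _ _ _ G hG => ⟨G, hG⟩⟩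

/-- Spheres that die after `g` and one dimension up die already in `B`, if `Good n (h ∘ g)`. -/
theorem Good.null {D : Type*} [TopologicalSpace D] {h : C → D} (hgh : Good n (h ∘ g))
    (ch : Continuous h) [Fintype ι] (hι : Fintype.card ι ≤ n) (a : C(bd ι, B)) (G : C(ι → I, C))
    (hG : Lifts g a G) : ∃ l : C(ι → I, B), ∀ x : bd ι, l x = a x := by
  rcases hι.lt_or_eq with hlt | heq
  · obtain ⟨l, hl, -⟩ := hgh.compress ι hlt a (ContinuousMap.comp ⟨h, ch⟩ G)
      fun x => by show h (G x) = _; rw [hG x]; rfl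
    exact ⟨l, hl⟩
  · exact hgh.extends_top ι heq a (ContinuousMap.comp ⟨h, ch⟩ G)
      fun x => by show h (G x) = _; rw [hG x]; rfl

/-- If `g ∘ f` and `h ∘ g` are good then so is `f`. -/
theorem Good.sandwich {D : Type*} [TopologicalSpace D] {h : C → D} (hgf : Good n (g ∘ f))
    (hhg : Good n (h ∘ g)) (cg : Continuous g) (cf : Continuous f) (ch : Continuous h) :
    Good n f := by
  classical
  refine ⟨fun ι _ hι a G hG => ?_, fun ι _ hι a G hG => ?_⟩
  · obtain ⟨l, hl, M, hM0, hM1, hMb⟩ := hgf.compress ι hι a (ContinuousMap.comp ⟨g, cg⟩ G)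
      fun x => by show g (G x) = _; rw [hG x]; rfl
    let b : (Option ι → I) → B := fun z => if z none = 1 then f (l (unopt z).1) else G (unopt z).1
    have hzero : ∀ z : Option ι → I, (unopt z).1 ∈ bd ι → b z = G (unopt z).1 := fun z hz => by
      by_cases h1 : z none = 1
      · simp only [b, if_pos h1]
        rw [hl ⟨_, hz⟩, hG ⟨_, hz⟩]
      · simp [b, h1]
    have hcn : Continuous fun z : Option ι → I => z none := continuous_apply none
    have hcx : Continuous fun z : Option ι → I => (unopt z).1 := continuous_fst.comp continuous_unopt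
    have hb : ContinuousOn b (bd (Option ι)) := by
      have : bd (Option ι) = ({z | z none = 0} ∪ {z | (unopt z).1 ∈ bd ι}) ∪ {z | z none = 1} := by
        ext z; simp only [mem_bd_option, Set.mem_ofPred_eq, Set.mem_union]; tauto
      rw [this]
      refine ContinuousOn.union_of_isClosed ((G.continuous.comp hcx).continuousOn.congr ?_)
        ((cf.comp (l.continuous.comp hcx)).continuousOn.congr fun z hz => if_pos hz)
        ((isClosed_eq hcn continuous_const).union ((isClosed_bd ι).preimage hcx))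
        (isClosed_eq hcn continuous_const)
      intro z hz
      rcases hz with hz | hz
      · have hz' : z none = 0 := hz
        have : z none ≠ 1 := by rw [hz']; exact zero_ne_one
        simp [b, this]
      · exact hzero z hz
    obtain ⟨K, hK⟩ := hhg.null ch (ι := Option ι) (by rw [Fintype.card_option]; omega)
      ⟨(bd (Option ι)).domRestrict b, continuousOn_iff_continuous_domRestrict.1 hb⟩
      ⟨fun z => M (unopt z), M.continuous.comp continuous_unopt⟩ fun z => by
        show M (unopt z.1) = g (b z.1)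
        rcases mem_bd_option.1 z.2 with h0 | h0 | h0
        · have h01 : z.1 none ≠ 1 := by rw [h0]; exact zero_ne_one
          have : unopt z.1 = ((unopt z.1).1, 0) := Prod.ext rfl h0
          simp only [b, if_neg h01]
          rw [this, hM0]; rfl
        · have : unopt z.1 = ((unopt z.1).1, 1) := Prod.ext rfl h0
          simp only [b, if_pos h0]
          rw [this, hM1]; rfl
        · rw [hzero _ h0]
          have : unopt z.1 = ((unopt z.1).1, (unopt z.1).2) := rfl
          rw [this, hMb _ h0]; rfl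
    refine ⟨l, hl, ⟨fun p => K (opt p), K.continuous.comp continuous_opt⟩,
      fun x => ?_, fun x => ?_, fun x hx t => ?_⟩
    · show K (opt (x, 0)) = _
      refine (hK ⟨opt (x, 0), mem_bd_option.2 (Or.inl rfl)⟩).trans ?_
      show b (opt (x, 0)) = _
      have h01 : opt (x, (0 : I)) none ≠ 1 := zero_ne_one
      simp only [b, if_neg h01]; rfl
    · show K (opt (x, 1)) = _
      refine (hK ⟨opt (x, 1), mem_bd_option.2 (Or.inr (Or.inl rfl))⟩).trans ?_
      show b (opt (x, 1)) = _
      have h01 : opt (x, (1 : I)) none = 1 := rfl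
      simp only [b, if_pos h01]; rfl
    · show K (opt (x, t)) = _
      refine (hK ⟨opt (x, t), mem_bd_option.2 (Or.inr (Or.inr hx))⟩).trans ?_
      show b (opt (x, t)) = _
      exact hzero _ hx
  · exact hgf.extends_top ι hι a (ContinuousMap.comp ⟨g, cg⟩ G)
      fun x => by show g (G x) = _; rw [hG x]; rfl

/-- Two out of three: `g ∘ f` and `g` good imply `f` good. -/
theorem Good.of_comp_left (hgf : Good n (g ∘ f)) (hg : Good n g) (cg : Continuous g)
    (cf : Continuous f) : Good n f :=
  hgf.sandwich (h := id) hg cg cf continuous_id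

/-- Homotopy invariance. -/
theorem Good.of_homotopic {f₀ f₁ : C(A, B)} (h : Good n f₀) (H : f₀.Homotopic f₁) :
    Good n f₁ := by
  obtain ⟨H⟩ := H
  have hσ : Continuous fun t : I => unitInterval.symm t := unitInterval.continuous_symm
  refine ⟨fun ι _ hι a G hG => ?_, fun ι _ hι a G hG => ?_⟩
  all_goals
    obtain hb | ⟨⟨x₀, hx₀⟩⟩ := isEmpty_or_nonempty (bd ι)
  · obtain ⟨l, hl, M, hM0, hM1, -⟩ := h.compress ι hι a G fun x => isEmptyElim x
    obtain ⟨K, hK, hK0, hK1, -, -⟩ := concat M.continuous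
      (N := fun p : (ι → I) × I => H (p.2, l p.1))
      (H.continuous.comp (continuous_snd.prodMk (l.continuous.comp continuous_fst)))
      fun x => by simp [hM1]
    refine ⟨l, hl, ⟨K, hK⟩, fun x => (hK0 x).trans (hM0 x), fun x => ?_,
      fun x hx => hb.elim ⟨x, hx⟩⟩
    show K (x, 1) = _
    simp [hK1]
  · obtain ⟨a', ha', hae⟩ := exists_total a (a ⟨x₀, hx₀⟩)
    have hP' : ContinuousOn (fun p : (ι → I) × I => H (p.2, a' p.1)) {p | p.1 ∈ bd ι} :=
      H.continuous.comp_continuousOn
        (continuous_snd.continuousOn.prodMk (ha'.comp continuous_fst.continuousOn fun p hp => hp))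
    obtain ⟨l, hl, M, hM0, hM1, hMb⟩ := h.flex hι a G
      (P := fun p => H (unitInterval.symm p.2, a' p.1))
      (H.continuous.comp_continuousOn ((hσ.comp continuous_snd).continuousOn.prodMk
        (ha'.comp continuous_fst.continuousOn fun p hp => hp)))
      (fun x hx => by simp [hae ⟨x, hx⟩, hG ⟨x, hx⟩]) (fun x => by simp [hae x])
    obtain ⟨K, hK, hK0, hK1, hKl, hKr⟩ := concat M.continuous
      (N := fun p : (ι → I) × I => H (p.2, l p.1))
      (H.continuous.comp (continuous_snd.prodMk (l.continuous.comp continuous_fst)))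
      fun x => by simp [hM1]
    let φ : I → I := fun t => projIcc 0 1 zero_le_one |2 * (t : ℝ) - 1|
    obtain ⟨N, hN, hN0, hN1, hNb⟩ := adjust hK hP'
      (φ := φ) (ψ := fun _ => 1)
      (continuous_projIcc.comp ((continuous_const.mul continuous_subtype_val).sub continuous_const).abs)
      continuous_const (by simp [φ]) (by norm_num [φ]) fun x hx t => by
        by_cases ht : (t : ℝ) ≤ 1 / 2
        · rw [hKl x t ht, hMb x hx]
          congr 2
          apply Subtype.ext
          have h1 : 2 * (t : ℝ) ∈ Icc (0 : ℝ) 1 := ⟨by linarith [t.2.1], by linarith⟩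
          have h2 : |2 * (t : ℝ) - 1| = 1 - 2 * (t : ℝ) := by
            rw [abs_of_nonpos (by linarith)]; ring
          simp only [φ, coe_symm_eq, h2]
          rw [projIcc_of_mem _ h1, projIcc_of_mem _ ⟨by linarith, by linarith [t.2.1]⟩]
        · rw [hKr x t (not_le.1 ht)]
          show H (_, l x) = H (_, a' x)
          rw [hl ⟨x, hx⟩, hae ⟨x, hx⟩]
          congr 2
          simp only [φ]
          rw [abs_of_nonneg (by linarith [not_le.1 ht])]
    refine ⟨l, hl, ⟨N, hN⟩, fun x => ?_, fun x => ?_, fun x hx t => ?_⟩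
    · show N (x, 0) = _
      rw [hN0, hK0, hM0]
    · show N (x, 1) = _
      simp [hN1, hK1]
    · show N (x, t) = _
      rw [hNb x hx t]
      simp [hae ⟨x, hx⟩, hG ⟨x, hx⟩]
  · exact h.extends_top ι hι a G fun x => isEmptyElim x
  · obtain ⟨a', ha', hae⟩ := exists_total a (a ⟨x₀, hx₀⟩)
    exact h.flex_top hι a G (P := fun p => H (unitInterval.symm p.2, a' p.1))
      (H.continuous.comp_continuousOn ((hσ.comp continuous_snd).continuousOn.prodMk
        (ha'.comp continuous_fst.continuousOn fun p hp => hp)))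
      (fun x hx => by simp [hae ⟨x, hx⟩, hG ⟨x, hx⟩]) (fun x => by simp [hae x])

/-- A homotopy equivalence is a weak equivalence. -/
theorem WeakEq.of_homotopyEquiv (e : ContinuousMap.HomotopyEquiv A B) : WeakEq e.toFun := by
  intro n
  have h1 : Good n (e.invFun ∘ e.toFun) :=
    Good.of_homotopic (f₀ := ContinuousMap.id A) (f₁ := e.invFun.comp e.toFun) Good.id' e.left_inv.symm
  have h2 : Good n (e.toFun ∘ e.invFun) :=
    Good.of_homotopic (f₀ := ContinuousMap.id B) (f₁ := e.toFun.comp e.invFun) Good.id' e.right_inv.symm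
  exact h1.sandwich h2 e.invFun.continuous e.toFun.continuous e.toFun.continuous

/-- Goodness is monotone. -/
theorem Good.mono (h : Good n f) {m : ℕ} (hm : m ≤ n) : Good m f := by
  refine ⟨fun ι _ hι a G hG => h.compress ι (lt_of_lt_of_le hι hm) a G hG,
    fun ι _ hι a G hG => ?_⟩
  rcases hm.lt_or_eq with hlt | heq
  · obtain ⟨l, hl, -⟩ := h.compress ι (hι ▸ hlt) a G hG
    exact ⟨l, hl⟩
  · exact h.extends_top ι (hι.trans heq) a G hG

end Vale.Agent.P259.Top
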