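import Vale.Agent.P259.Top.CompRight
import Mathlib.Topology.Path
import Mathlib.Topology.Connected.PathConnected
import Mathlib.Topology.Homotopy.Contractible

/-! P259: highly connected spaces, and the passage through loops. -/

noncomputable section

open unitInterval

namespace Vale.Agent.P259.Top

/-- Spheres of dimension below `n` bound discs. -/
def Conn (n : ℕ) (Y : Type) [TopologicalSpace Y] : Prop :=
  ∀ (ι : Type) [Fintype ι], Fintype.card ι ≤ n → ∀ a : C(bd ι, Y),
    ∃ g : C(ι → I, Y), ∀ x : bd ι, g x = a x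

variable {A B : Type} [TopologicalSpace A] [TopologicalSpace B] {n : ℕ}

/-- Connectivity says that the map to a point is good. -/
theorem conn_iff_good : Conn n A ↔ Good n (fun _ : A => ()) := by
  refine ⟨fun h => ⟨fun ι _ hι a G _ => ?_, fun ι _ hι a _ _ => h ι hι.le a⟩,
    fun h ι _ hι a => ?_⟩
  · obtain ⟨g, hg⟩ := h ι hι.le a
    exact ⟨g, hg, ContinuousMap.const _ (), fun _ => rfl, fun _ => rfl, fun _ _ _ => rfl⟩
  · rcases hι.lt_or_eq with hlt | heq
    · obtain ⟨g, hg, -⟩ := h.compress ι hlt a (ContinuousMap.const _ ()) fun _ => rfl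
      exact ⟨g, hg⟩
    · exact h.extends_top ι heq a (ContinuousMap.const _ ()) fun _ => rfl

theorem Conn.zero (h : Nonempty A) : Conn 0 A := by
  intro ι _ hι a
  have := Fintype.card_eq_zero_iff.1 (Nat.le_zero.1 hι)
  exact ⟨ContinuousMap.const _ h.some, fun x => by obtain ⟨j, -⟩ := x.2; exact isEmptyElim j⟩

theorem Conn.nonempty (h : Conn n A) : Nonempty A := by
  have : IsEmpty (bd (Fin 0)) := ⟨fun x => by obtain ⟨j, -⟩ := x.2; exact j.elim0⟩
  obtain ⟨g, -⟩ := h (Fin 0) (by simp) ⟨isEmptyElim, continuous_of_discreteTopology⟩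
  exact ⟨g Fin.elim0⟩

theorem Conn.mono {m : ℕ} (h : Conn n A) (hm : m ≤ n) : Conn m A :=
  fun ι _ hι => h ι (hι.trans hm)

/-- Maps of connected spaces are good. -/
theorem Good.of_conn (f : C(A, B)) (hA : Conn n A) (hB : Conn n B) : Good n f :=
  Good.of_comp_left (g := fun _ : B => ()) (f := f) (conn_iff_good.1 hA) (conn_iff_good.1 hB)
    continuous_const f.continuous

/-- Connectivity passes along good maps. -/
theorem Conn.of_good {f : C(A, B)} (hA : Conn n A) (hf : Good n f) : Conn n B :=
  conn_iff_good.2 <| Good.of_comp_right (g := fun _ : B => ()) (f := f) (conn_iff_good.1 hA) hf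
    continuous_const f.continuous

/-- Connectivity is pulled back along good maps. -/
theorem Conn.of_good' {f : C(A, B)} (hB : Conn n B) (hf : Good n f) : Conn n A :=
  conn_iff_good.2 <| Good.comp (g := fun _ : B => ()) (f := f) (conn_iff_good.1 hB) hf
    f.continuous continuous_const

theorem Conn.of_contractible [ContractibleSpace A] : Conn n A := by
  obtain ⟨e⟩ := ContractibleSpace.hequiv_unit A
  exact conn_iff_good.2 (WeakEq.of_homotopyEquiv e n)

/-- Trivial loop spaces of a path connected space raise the degree by one. -/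
theorem Conn.of_loops [PathConnectedSpace A] (y : A) (h : Conn n (Path y y)) : Conn (n + 1) A := by
  classical
  refine conn_iff_good.2 (Good.of_comp_right (g := fun _ : A => ()) (f := fun _ : Unit => y) Good.id' ?_
    continuous_const continuous_const)
  refine ⟨fun ι _ hι a G hG => ⟨ContinuousMap.const _ (), fun _ => rfl, ?_⟩,
    fun ι _ _ a G _ => ⟨ContinuousMap.const _ (), fun _ => rfl⟩⟩
  rcases isEmpty_or_nonempty ι with hemp | ⟨⟨j⟩⟩
  · let γ := PathConnectedSpace.somePath (G isEmptyElim) y
    refine ⟨⟨fun p => γ p.2, γ.continuous.comp continuous_snd⟩, fun x => ?_, fun _ => γ.target,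
      fun x hx => by obtain ⟨k, -⟩ := hx; exact isEmptyElim k⟩
    show γ 0 = G x
    rw [γ.source, Subsingleton.elim x isEmptyElim]
  · let κ := {i : ι // i ≠ j}
    let put : (Option κ → I) × I → ι → I := fun p i =>
      if hi : i = j then p.2 else p.1 (some ⟨i, hi⟩)
    have hput : Continuous put := continuous_pi fun i => by
      by_cases hi : i = j
      · simp only [put, dif_pos hi]; exact continuous_snd
      · simp only [put, dif_neg hi]; exact (continuous_apply _).comp continuous_fst
    let F : (Option κ → I) × I → A := fun p => if p.1 none = 0 then G (put p) else y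
    have hFy : ∀ z : Option κ → I, z ∈ bd (Option κ) → ∀ τ : I,
        (z none = 1 ∨ (∃ k, z (some k) = 0 ∨ z (some k) = 1) ∨ τ = 0 ∨ τ = 1) → F (z, τ) = y := by
      intro z _ τ h
      simp only [F]
      split_ifs with h0
      · have hb : put (z, τ) ∈ bd ι := by
          rcases h with h1 | ⟨k, hk⟩ | ht
          · rw [h0] at h1; exact absurd h1 (by norm_num)
          · exact ⟨k.1, by simp only [put, dif_neg k.2]; exact hk⟩
          · exact ⟨j, by simp only [put, dif_pos]; exact ht⟩
        exact hG ⟨_, hb⟩
      · rfl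
    have hF : ContinuousOn F (bd (Option κ) ×ˢ (Set.univ : Set I)) := by
      let P : Set ((Option κ → I) × I) := {p | p.1 none = 0}
      let Q : Set ((Option κ → I) × I) :=
        {p | p.1 none = 1} ∪ ⋃ k : κ, {p | p.1 (some k) = 0} ∪ {p | p.1 (some k) = 1}
      have ev : ∀ o : Option κ, Continuous fun p : (Option κ → I) × I => p.1 o := fun o =>
        (continuous_apply o).comp continuous_fst
      have hP : IsClosed P := isClosed_eq (ev none) continuous_const
      have hQ : IsClosed Q := (isClosed_eq (ev none) continuous_const).union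
        (isClosed_iUnion_of_finite fun k => (isClosed_eq (ev _) continuous_const).union
          (isClosed_eq (ev _) continuous_const))
      have hbd : IsClosed (bd (Option κ) ×ˢ (Set.univ : Set I)) :=
        (isClosed_bd _).prod isClosed_univ
      refine ((ContinuousOn.union_of_isClosed ?_ ?_ (hbd.inter hP) (hbd.inter hQ)).mono ?_)
      · refine (G.continuous.comp hput).continuousOn.congr fun p hp => ?_
        simp only [F, if_pos (show p.1 none = 0 from hp.2), Function.comp]
      · refine (continuousOn_const (c := y)).congr fun p hp => hFy p.1 hp.1.1 p.2 ?_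
        rcases hp.2 with h1 | h1
        · exact Or.inl h1
        · obtain ⟨k, hk⟩ := Set.mem_iUnion.1 h1
          exact Or.inr (Or.inl ⟨k, hk⟩)
      · rintro ⟨z, τ⟩ hp
        obtain ⟨o, ho⟩ := hp.1
        cases o with
        | none => exact ho.imp (fun h0 => ⟨hp, h0⟩) (fun h1 => ⟨hp, Or.inl h1⟩)
        | some k => exact Or.inr ⟨hp, Or.inr (Set.mem_iUnion.2 ⟨k, ho⟩)⟩
    let φ₀ : C(bd (Option κ) × I, A) := ⟨fun q => F (q.1.1, q.2),
      hF.comp_continuous (by fun_prop) fun q => ⟨q.1.2, trivial⟩⟩
    let φ : C(bd (Option κ), Path y y) :=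
      ⟨fun z => ⟨φ₀.curry z, hFy _ z.2 _ (Or.inr (Or.inr (Or.inl rfl))),
        hFy _ z.2 _ (Or.inr (Or.inr (Or.inr rfl)))⟩, continuous_induced_rng.2 φ₀.curry.continuous⟩
    have hcard : Fintype.card (Option κ) ≤ n := by
      have : 0 < Fintype.card ι := Fintype.card_pos_iff.2 ⟨j⟩
      simp only [Fintype.card_option, κ, Fintype.card_subtype_compl, Fintype.card_subtype_eq]
      omega
    obtain ⟨L, hL⟩ := h _ hcard φ
    let z : (ι → I) × I → Option κ → I := fun p o => o.elim p.2 fun k => p.1 k.1
    have hz : Continuous z := continuous_pi fun o => by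
      cases o with
      | none => exact continuous_snd
      | some k => exact (continuous_apply k.1).comp continuous_fst
    have key : ∀ p, z p ∈ bd (Option κ) → L (z p) (p.1 j) = F (z p, p.1 j) := fun p hp =>
      congrArg (fun γ : Path y y => γ (p.1 j)) (hL ⟨z p, hp⟩)
    have hzero : ∀ x, F (z (x, 0), x j) = G x := fun x => by
      simp only [F, z, Option.elim, if_pos]
      refine congrArg G (funext fun i => ?_)
      by_cases hi : i = j
      · subst hi; simp [put]
      · simp [put, hi]
    refine ⟨⟨fun p => L (z p) (p.1 j), ?_⟩, fun x => ?_, fun x => ?_, fun x hx t => ?_⟩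
    · exact continuous_eval.comp (((L.continuous.comp hz)).prodMk
        ((continuous_apply j).comp continuous_fst))
    · exact (key (x, 0) ⟨none, Or.inl rfl⟩).trans (hzero x)
    · exact (key (x, 1) ⟨none, Or.inr rfl⟩).trans
        (hFy _ ⟨none, Or.inr rfl⟩ _ (Or.inl rfl))
    · show L (z (x, t)) (x j) = G x
      obtain ⟨i, hi⟩ := id hx
      have hGy : G x = y := hG ⟨x, hx⟩
      rw [hGy]
      by_cases hij : i = j
      · subst hij
        rcases hi with h0 | h1
        · rw [h0]; exact (L (z (x, t))).source
        · rw [h1]; exact (L (z (x, t))).target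
      · exact (key (x, t) ⟨some ⟨i, hij⟩, hi⟩).trans
          (hFy _ ⟨some ⟨i, hij⟩, hi⟩ _ (Or.inr (Or.inl ⟨⟨i, hij⟩, hi⟩)))

/-- Connectivity from path spaces. -/
theorem Conn.of_paths (b : A) (h : ∀ y, Joined b y) (hp : ∀ y, Conn n (Path b y)) :
    Conn (n + 1) A :=
  have : PathConnectedSpace A := ⟨⟨b⟩, fun x y => (h x).symm.trans (h y)⟩
  Conn.of_loops b (hp b)

end Vale.Agent.P259.Top
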