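import Vale.Agent.P259.Top.Grid

/-!
# Filling cylinders, and one cell of the lifting induction (P259)
-/

namespace Vale.Agent.P259.Top

open Set unitInterval

universe u v

variable {B : Type v} [TopologicalSpace B] {κ : Type} [Fintype κ]

/-- A cylinder with prescribed ends and sides in a weakly contractible set. -/
theorem Filler.cylinder {U : Set B} (hU : Filler U) {f₀ f₁ : (κ → I) → B} (h₀ : Continuous f₀)
    (h₁ : Continuous f₁) (m₀ : ∀ x, f₀ x ∈ U) (m₁ : ∀ x, f₁ x ∈ U) {S : (κ → I) × I → B}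
    (hS : ContinuousOn S {p | p.1 ∈ bd κ}) (mS : ∀ p, p.1 ∈ bd κ → S p ∈ U)
    (e₀ : ∀ x ∈ bd κ, S (x, 0) = f₀ x) (e₁ : ∀ x ∈ bd κ, S (x, 1) = f₁ x) :
    ∃ F : (κ → I) × I → B, Continuous F ∧ (∀ p, F p ∈ U) ∧ (∀ x, F (x, 0) = f₀ x) ∧
      (∀ x, F (x, 1) = f₁ x) ∧ ∀ p, p.1 ∈ bd κ → F p = S p := by
  classical
  let a : (Option κ → I) → B := fun z =>
    if z none = 0 then f₀ (unopt z).1 else if z none = 1 then f₁ (unopt z).1 else S (unopt z)
  have hcn : Continuous fun z : Option κ → I => z none := continuous_apply none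
  have hcx : Continuous fun z : Option κ → I => (unopt z).1 := continuous_fst.comp continuous_unopt
  have aS : ∀ z : Option κ → I, (unopt z).1 ∈ bd κ → a z = S (unopt z) := fun z hz => by
    by_cases h0 : z none = 0
    · simp only [a, if_pos h0]
      rw [show unopt z = ((unopt z).1, 0) from Prod.ext rfl h0]
      exact (e₀ _ hz).symm
    · by_cases h1 : z none = 1
      · simp only [a, if_neg h0, if_pos h1]
        rw [show unopt z = ((unopt z).1, 1) from Prod.ext rfl h1]
        exact (e₁ _ hz).symm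
      · simp [a, h0, h1]
  have a1 : ∀ z : Option κ → I, z none = 1 → a z = f₁ (unopt z).1 := fun z h1 => by
    have h0 : z none ≠ 0 := by rw [h1]; exact one_ne_zero
    simp only [a, if_neg h0, if_pos h1]
  have hbd : bd (Option κ) = ({z | z none = 0} ∪ {z | z none = 1}) ∪ {z | (unopt z).1 ∈ bd κ} := by
    ext z; simp only [mem_bd_option, Set.mem_ofPred_eq, Set.mem_union, or_assoc]
  have ha : ContinuousOn a (bd (Option κ)) := by
    rw [hbd]
    refine ContinuousOn.union_of_isClosed (ContinuousOn.union_of_isClosed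
      ((h₀.comp hcx).continuousOn.congr fun z hz => if_pos hz)
      ((h₁.comp hcx).continuousOn.congr fun z hz => a1 z hz)
      (isClosed_eq hcn continuous_const) (isClosed_eq hcn continuous_const))
      ((hS.comp continuous_unopt.continuousOn fun z hz => hz).congr aS)
      ((isClosed_eq hcn continuous_const).union (isClosed_eq hcn continuous_const))
      ((isClosed_bd κ).preimage hcx)
  have hm : MapsTo a (bd (Option κ)) U := fun z hz => by
    rcases mem_bd_option.1 hz with h | h | h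
    · simp only [a, if_pos h]; exact m₀ _
    · rw [a1 z h]; exact m₁ _
    · rw [aS z h]; exact mS _ h
  obtain ⟨F, hF, hFU, hFa⟩ := hU (Option κ) a ha hm
  refine ⟨fun p => F (opt p), hF.comp continuous_opt, fun p => hFU _, fun x => ?_, fun x => ?_,
    fun p hp => ?_⟩
  · show F (opt (x, 0)) = _
    rw [hFa (show opt (x, (0 : I)) ∈ bd (Option κ) from mem_bd_option.2 (Or.inl rfl))]
    exact if_pos rfl
  · show F (opt (x, 1)) = _
    rw [hFa (show opt (x, (1 : I)) ∈ bd (Option κ) from mem_bd_option.2 (Or.inr (Or.inl rfl)))]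
    exact a1 _ rfl
  · show F (opt p) = _
    rw [hFa (show opt p ∈ bd (Option κ) from mem_bd_option.2 (Or.inr (Or.inr hp)))]
    exact aS _ hp

variable {H : Type u} [TopologicalSpace H]

/-- One cell: lift the bottom and sides, and compress the top into `V`. -/
theorem cellLift {q : H → B} {V P : Set B} {n : ℕ} (hsub : SubGood n (q ⁻¹' V) (q ⁻¹' P))
    (hκ : Fintype.card κ ≤ n) {f : (κ → I) → H} (hf : Continuous f) (mf : ∀ y, q (f y) ∈ P)
    {S : (κ → I) × I → H} (hS : ContinuousOn S {p | p.1 ∈ bd κ})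
    (mS : ∀ p, p.1 ∈ bd κ → q (S p) ∈ P) (e₀ : ∀ y ∈ bd κ, S (y, 0) = f y)
    (e₁ : ∀ y ∈ bd κ, q (S (y, 1)) ∈ V) :
    ∃ g : (κ → I) → H, Continuous g ∧ (∀ y, q (g y) ∈ V) ∧ (∀ y ∈ bd κ, g y = S (y, 1)) ∧
      (Fintype.card κ < n → ∃ l : (κ → I) × I → H, Continuous l ∧ (∀ p, q (l p) ∈ P) ∧
        (∀ y, l (y, 0) = f y) ∧ (∀ y, l (y, 1) = g y) ∧ ∀ p, p.1 ∈ bd κ → l p = S p) := by
  obtain ⟨L, hL, hLP, hL0, hLb⟩ := hep (U := q ⁻¹' P) hf mf hS mS e₀
  have hgt : Continuous fun y => L (y, (1 : I)) :=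
    hL.comp (continuous_id.prodMk continuous_const)
  have hgV : MapsTo (fun y => L (y, (1 : I))) (bd κ) (q ⁻¹' V) := fun y hy => by
    show q (L (y, 1)) ∈ V
    rw [hLb (y, 1) hy]; exact e₁ y hy
  rcases hκ.lt_or_eq with hlt | heq
  · obtain ⟨M, hM, hMP, hM0, hM1, hMb⟩ := hsub.compress κ hlt _ hgt (fun y => hLP _) hgV
    refine ⟨fun y => M (y, 1), hM.comp (continuous_id.prodMk continuous_const), hM1,
      fun y hy => ?_, fun _ => ?_⟩
    · show M (y, 1) = S (y, 1)
      rw [hMb y hy, hLb (y, 1) hy]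
    obtain ⟨K, hK, hK0, hK1, hKl, hKr⟩ := concat hL hM fun y => (hM0 y).symm
    have hKP : ∀ p, q (K p) ∈ P := fun p => by
      by_cases ht : (p.2 : ℝ) ≤ 1 / 2
      · rw [show K p = _ from hKl p.1 p.2 ht]; exact hLP _
      · rw [show K p = _ from hKr p.1 p.2 (not_le.1 ht)]; exact hMP _
    obtain ⟨l, hl, hlP, hl0, hl1, hlb⟩ := adjust_in (U := q ⁻¹' P) hK hKP mS hS
      (φ := fun t => projIcc (0 : ℝ) 1 zero_le_one (2 * (t : ℝ))) (ψ := id)
      (continuous_projIcc.comp (continuous_const.mul continuous_subtype_val)) continuous_id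
      (by simp) (by norm_num) fun y hy t => by
        by_cases ht : (t : ℝ) ≤ 1 / 2
        · rw [hKl y t ht, hLb _ hy]
        · rw [hKr y t (not_le.1 ht), hMb y hy, hLb (y, 1) hy]
          congr 2
          exact (projIcc_of_right_le _ (by linarith [not_le.1 ht])).symm
    exact ⟨l, hl, hlP, fun y => by rw [hl0, hK0, hL0], fun y => by rw [hl1, hK1],
      fun p hp => hlb p.1 hp p.2⟩
  · obtain ⟨g, hg, hgV', hgb⟩ := hsub.extends_top κ heq _ hgt (fun y => hLP _) hgV
    exact ⟨g, hg, hgV', fun y hy => by rw [hgb hy]; exact hLb (y, 1) hy,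
      fun h => absurd h (not_lt.2 heq.ge)⟩

end Vale.Agent.P259.Top
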