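import Mathlib.Analysis.Normed.Group.Constructions
import Mathlib.Analysis.Normed.Module.Basic
import Mathlib.Topology.UnitInterval
import Mathlib.Topology.ContinuousMap.Basic
import Mathlib.Topology.Piecewise
import Mathlib.Topology.Order.ProjIcc

/-!
# Cubes, the box retraction, and connectivity of maps in extension form (P259)

`Good n f` says that `f` has the extension property up to homotopy relative to the boundary for
cubes of dimension `< n`, and the plain extension property for cubes of dimension `n`: bijective on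
homotopy groups in degrees `< n` and all base points.
-/

namespace Vale.Agent.P259.Top

open Set unitInterval

universe u v

/-- The boundary of a cube. -/
def bd (ι : Type) : Set (ι → I) := {x | ∃ j, x j = 0 ∨ x j = 1}

theorem isClosed_bd (ι : Type) [Fintype ι] : IsClosed (bd ι) := by
  have : bd ι = ⋃ j : ι, ({x : ι → I | x j = 0} ∪ {x | x j = 1}) := by
    ext x; simp [bd]
  rw [this]
  exact isClosed_iUnion_of_finite fun j =>
    (isClosed_eq (continuous_apply j) continuous_const).union
      (isClosed_eq (continuous_apply j) continuous_const)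

/-- Bottom and sides of a cylinder over a cube. -/
def box (ι : Type) : Set ((ι → I) × I) := {p | p.2 = 0 ∨ p.1 ∈ bd ι}

theorem isClosed_box (ι : Type) [Fintype ι] : IsClosed (box ι) :=
  (isClosed_eq continuous_snd continuous_const).union ((isClosed_bd ι).preimage continuous_fst)

section Retraction

variable {ι : Type} [Fintype ι]

noncomputable def rad (x : ι → I) : ℝ := ‖fun j => 2 * (x j : ℝ) - 1‖

theorem abs_le_rad (x : ι → I) (j : ι) : |2 * (x j : ℝ) - 1| ≤ rad x := by
  simpa [rad, Real.norm_eq_abs] using norm_le_pi_norm (fun j => 2 * (x j : ℝ) - 1) j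

theorem rad_le_one (x : ι → I) : rad x ≤ 1 := by
  refine (pi_norm_le_iff_of_nonneg zero_le_one).2 fun j => ?_
  rw [Real.norm_eq_abs, abs_le]
  constructor <;> linarith [(x j).2.1, (x j).2.2]

theorem rad_eq_one {x : ι → I} (h : x ∈ bd ι) : rad x = 1 := by
  obtain ⟨j, h | h⟩ := h <;>
    exact le_antisymm (rad_le_one x) (le_trans (by simp [h]; try norm_num) (abs_le_rad x j))

theorem continuous_rad : Continuous (rad (ι := ι)) :=
  continuous_norm.comp (continuous_pi fun j =>
    (continuous_const.mul (continuous_subtype_val.comp (continuous_apply j))).sub continuous_const)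

noncomputable def scal (p : (ι → I) × I) : ℝ := max (rad p.1) ((2 - (p.2 : ℝ)) / 2)

theorem half_le_scal (p : (ι → I) × I) : 1 / 2 ≤ scal p :=
  le_trans (by linarith [p.2.2.2]) (le_max_right _ _)

theorem scal_pos (p : (ι → I) × I) : 0 < scal p := lt_of_lt_of_le (by norm_num) (half_le_scal p)

theorem scal_le_one (p : (ι → I) × I) : scal p ≤ 1 :=
  max_le (rad_le_one _) (by linarith [p.2.2.1])

theorem continuous_scal : Continuous (scal (ι := ι)) :=
  (continuous_rad.comp continuous_fst).max
    ((continuous_const.sub (continuous_subtype_val.comp continuous_snd)).div_const _)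

/-- The radial retraction of a cylinder onto its bottom and sides. -/
noncomputable def retr (p : (ι → I) × I) : (ι → I) × I :=
  (fun j => projIcc 0 1 zero_le_one (1 / 2 + ((p.1 j : ℝ) - 1 / 2) / scal p),
    projIcc 0 1 zero_le_one (2 - (2 - (p.2 : ℝ)) / scal p))

theorem continuous_retr : Continuous (retr (ι := ι)) :=
  (continuous_pi fun j => continuous_projIcc.comp (continuous_const.add
    (((continuous_subtype_val.comp ((continuous_apply j).comp continuous_fst)).sub
      continuous_const).div continuous_scal fun p => (scal_pos p).ne'))).prodMk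
  (continuous_projIcc.comp (continuous_const.sub
    ((continuous_const.sub (continuous_subtype_val.comp continuous_snd)).div continuous_scal
      fun p => (scal_pos p).ne')))

theorem retr_self {p : (ι → I) × I} (hp : p ∈ box ι) : retr p = p := by
  have hs : scal p = 1 := by
    refine le_antisymm (scal_le_one p) ?_
    rcases hp with h | h
    · exact le_trans (by simp [h]) (le_max_right _ _)
    · exact le_trans (rad_eq_one h).ge (le_max_left _ _)
  refine Prod.ext (funext fun j => ?_) ?_
  · simp only [retr, hs, div_one, add_sub_cancel]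
    exact projIcc_val _ _
  · simp only [retr, hs, div_one, sub_sub_cancel]
    exact projIcc_val _ _

theorem retr_mem (p : (ι → I) × I) : retr p ∈ box ι := by
  rcases le_total (rad p.1) ((2 - (p.2 : ℝ)) / 2) with h | h
  · refine Or.inl ?_
    have hs : scal p = (2 - (p.2 : ℝ)) / 2 := max_eq_right h
    have hne : (2 - (p.2 : ℝ)) ≠ 0 := by linarith [p.2.2.2]
    have : 2 - (2 - (p.2 : ℝ)) / scal p = 0 := by
      rw [hs]; field_simp; ring
    simp [retr, this]
  · refine Or.inr ?_
    have hs : scal p = rad p.1 := max_eq_left h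
    have hpos : 0 < rad p.1 := hs ▸ scal_pos p
    obtain ⟨j, hj⟩ : ∃ j, |2 * (p.1 j : ℝ) - 1| = rad p.1 := by
      by_contra hne
      simp only [not_exists] at hne
      refine lt_irrefl (rad p.1) ((pi_norm_lt_iff hpos).2 fun j => ?_)
      rw [Real.norm_eq_abs]
      exact lt_of_le_of_ne (abs_le_rad _ j) (hne j)
    refine ⟨j, ?_⟩
    rcases abs_choice (2 * (p.1 j : ℝ) - 1) with ha | ha <;> rw [ha] at hj
    · right
      have hd : ((p.1 j : ℝ) - 1 / 2) / scal p = 1 / 2 := by
        rw [hs, div_eq_iff hpos.ne']; linarith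
      simp only [retr, hd, add_halves]
      exact projIcc_right _
    · left
      have hd : ((p.1 j : ℝ) - 1 / 2) / scal p = -(1 / 2) := by
        rw [hs, div_eq_iff hpos.ne']; linarith
      simp only [retr, hd, add_neg_cancel]
      exact projIcc_left _

/-- Extension of a map from bottom and sides to the cylinder, with the same image. -/
theorem extend_box {Y : Type u} [TopologicalSpace Y] {f : (ι → I) × I → Y}
    (hf : ContinuousOn f (box ι)) :
    ∃ g : (ι → I) × I → Y, Continuous g ∧ EqOn g f (box ι) ∧ range g ⊆ f '' box ι := by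
  refine ⟨f ∘ retr, hf.comp_continuous continuous_retr retr_mem, fun p hp => ?_, ?_⟩
  · simp [retr_self hp]
  · rintro _ ⟨p, rfl⟩
    exact ⟨retr p, retr_mem p, rfl⟩

/-- Homotopy extension inside a set: a homotopy of the boundary of a cube extends to the cube. -/
theorem hep {Y : Type u} [TopologicalSpace Y] {U : Set Y} {f : (ι → I) → Y} (hf : Continuous f)
    (hfU : ∀ x, f x ∈ U) {M : (ι → I) × I → Y}
    (hM : ContinuousOn M {p | p.1 ∈ bd ι}) (hMU : ∀ p, p.1 ∈ bd ι → M p ∈ U)
    (h0 : ∀ x ∈ bd ι, M (x, 0) = f x) :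
    ∃ g : (ι → I) × I → Y, Continuous g ∧ (∀ p, g p ∈ U) ∧ (∀ x, g (x, 0) = f x) ∧
      ∀ p, p.1 ∈ bd ι → g p = M p := by
  classical
  let F : (ι → I) × I → Y := fun p => if p.1 ∈ bd ι then M p else f p.1
  have hF : ContinuousOn F (box ι) := by
    have hbox : box ι = {p | p.2 = 0} ∪ {p | p.1 ∈ bd ι} := rfl
    rw [hbox]
    refine ContinuousOn.union_of_isClosed ?_ (hM.congr fun p hp => if_pos hp)
      (isClosed_eq continuous_snd continuous_const) ((isClosed_bd ι).preimage continuous_fst)
    refine (hf.comp continuous_fst).continuousOn.congr fun p hp => ?_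
    by_cases h : p.1 ∈ bd ι
    · simp only [F, if_pos h]
      have hp0 : p.2 = 0 := hp
      have hp1 : p = (p.1, 0) := Prod.ext rfl hp0
      exact (congrArg M hp1).trans (h0 p.1 h)
    · simp [F, h]
  obtain ⟨g, hg, he, hr⟩ := extend_box hF
  refine ⟨g, hg, fun p => ?_, fun x => ?_, fun p hp => ?_⟩
  · obtain ⟨q, -, hq⟩ := hr ⟨p, rfl⟩
    rw [← hq]
    by_cases h : q.1 ∈ bd ι
    · simpa [F, h] using hMU q h
    · simpa [F, h] using hfU q.1
  · rw [he (show (x, (0 : I)) ∈ box ι from Or.inl rfl)]
    by_cases h : x ∈ bd ι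
    · simpa [F, h] using h0 x h
    · simp [F, h]
  · rw [he (show p ∈ box ι from Or.inr hp)]
    exact if_pos hp

end Retraction

/-! ## Sets -/

variable {Y : Type u} [TopologicalSpace Y]

/-- Weakly contractible subset: every sphere in it bounds a disc in it. -/
def Filler (U : Set Y) : Prop :=
  ∀ (ι : Type) [Fintype ι] (a : (ι → I) → Y), ContinuousOn a (bd ι) → MapsTo a (bd ι) U →
    ∃ g : (ι → I) → Y, Continuous g ∧ (∀ x, g x ∈ U) ∧ EqOn g a (bd ι)

/-- `V ⊆ U` is `n`-good. -/
structure SubGood (n : ℕ) (V U : Set Y) : Prop where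
  compress : ∀ (ι : Type) [Fintype ι], Fintype.card ι < n → ∀ g : (ι → I) → Y, Continuous g →
    (∀ x, g x ∈ U) → MapsTo g (bd ι) V →
    ∃ M : (ι → I) × I → Y, Continuous M ∧ (∀ p, M p ∈ U) ∧ (∀ x, M (x, 0) = g x) ∧
      (∀ x, M (x, 1) ∈ V) ∧ ∀ x ∈ bd ι, ∀ t, M (x, t) = g x
  extends_top : ∀ (ι : Type) [Fintype ι], Fintype.card ι = n → ∀ g : (ι → I) → Y, Continuous g →
    (∀ x, g x ∈ U) → MapsTo g (bd ι) V →
    ∃ g' : (ι → I) → Y, Continuous g' ∧ (∀ x, g' x ∈ V) ∧ EqOn g' g (bd ι)

/-! ## Maps -/

variable {A : Type u} {B : Type v} [TopologicalSpace A] [TopologicalSpace B]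

/-- The data of a boundary lift of a cube in `B`. -/
def Lifts (f : A → B) {ι : Type} (a : C(bd ι, A)) (G : C(ι → I, B)) : Prop :=
  ∀ x : bd ι, G x = f (a x)

/-- `f` is `n`-good. -/
structure Good (n : ℕ) (f : A → B) : Prop where
  compress : ∀ (ι : Type) [Fintype ι], Fintype.card ι < n → ∀ (a : C(bd ι, A)) (G : C(ι → I, B)),
    Lifts f a G → ∃ g : C(ι → I, A), (∀ x : bd ι, g x = a x) ∧
      ∃ M : C((ι → I) × I, B), (∀ x, M (x, 0) = G x) ∧ (∀ x, M (x, 1) = f (g x)) ∧
        ∀ x ∈ bd ι, ∀ t, M (x, t) = G x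
  extends_top : ∀ (ι : Type) [Fintype ι], Fintype.card ι = n → ∀ (a : C(bd ι, A)) (G : C(ι → I, B)),
    Lifts f a G → ∃ g : C(ι → I, A), ∀ x : bd ι, g x = a x

/-- Weak equivalence in extension form. -/
def WeakEq (f : A → B) : Prop := ∀ n, Good n f

end Vale.Agent.P259.Top
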