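import Vale.Agent.P259.Top.Calculus
import Mathlib.Algebra.Order.Floor.Semiring
import Mathlib.Topology.LocallyFinite
import Mathlib.Topology.Connected.Basic
import Mathlib.Topology.Connected.PathConnected
import Mathlib.Topology.MetricSpace.Pseudo.Pi

/-!
# The grid subdivision of a cube (P259)
-/

namespace Vale.Agent.P259.Top

open Set unitInterval

/-- A coordinate of a grid cell: even `2a` is the point `a/N`, odd `2a+1` the interval from `a/N`. -/
abbrev Code (N : ℕ) := Fin (2 * N + 1)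

/-- Face relation of codes. -/
def Code.Le {N : ℕ} (a b : Code N) : Prop :=
  a = b ∨ ((b : ℕ) % 2 = 1 ∧ ((a : ℕ) + 1 = b ∨ (a : ℕ) = b + 1))

theorem Code.Le.trans {N : ℕ} {a b c : Code N} (h : Code.Le a b) (h' : Code.Le b c) :
    Code.Le a c := by
  rcases h with rfl | ⟨hb, h⟩
  · exact h'
  · rcases h' with rfl | ⟨hc, h'⟩
    · exact Or.inr ⟨hb, h⟩
    · exfalso; omega

/-- The closed set of a code. -/
def Code.set {N : ℕ} (a : Code N) : Set I :=
  {x | (((a : ℕ) / 2 : ℕ) : ℝ) ≤ N * (x : ℝ) ∧ N * (x : ℝ) ≤ ((((a : ℕ) + 1) / 2 : ℕ) : ℝ)}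

theorem Code.isClosed_set {N : ℕ} (a : Code N) : IsClosed a.set :=
  (isClosed_le continuous_const (continuous_const.mul continuous_subtype_val)).inter
    (isClosed_le (continuous_const.mul continuous_subtype_val) continuous_const)

theorem Code.set_mono {N : ℕ} {a b : Code N} (h : Code.Le a b) : a.set ⊆ b.set := by
  rcases h with rfl | ⟨hb, h⟩
  · exact subset_rfl
  · intro x hx
    constructor
    · exact le_trans (Nat.cast_le.2 (by omega)) hx.1
    · exact le_trans hx.2 (Nat.cast_le.2 (by omega))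

/-- A cell of the grid. -/
abbrev Cell (N : ℕ) (ι : Type) := ι → Code N

namespace Cell

variable {N : ℕ} {ι : Type}

/-- The closed set of a cell. -/
def set (c : Cell N ι) : Set (ι → I) := {x | ∀ j, x j ∈ (c j).set}

theorem isClosed_set (c : Cell N ι) : IsClosed c.set := by
  rw [show c.set = ⋂ j, (fun x : ι → I => x j) ⁻¹' (c j).set by ext x; simp [set]]
  exact isClosed_iInter fun j => (Code.isClosed_set _).preimage (continuous_apply j)

/-- Face relation. -/
def Le (a b : Cell N ι) : Prop := ∀ j, Code.Le (a j) (b j)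

theorem Le.refl (a : Cell N ι) : Le a a := fun _ => Or.inl rfl

theorem Le.trans {a b c : Cell N ι} (h : Le a b) (h' : Le b c) : Le a c :=
  fun j => (h j).trans (h' j)

theorem set_mono {a b : Cell N ι} (h : Le a b) : a.set ⊆ b.set :=
  fun _ hx j => Code.set_mono (h j) (hx j)

/-- The directions in which the cell extends. -/
abbrev Dir (c : Cell N ι) := {j // (c j : ℕ) % 2 = 1}

/-- Dimension. -/
noncomputable def dim [Fintype ι] (c : Cell N ι) : ℕ := Fintype.card c.Dir

theorem dim_le [Fintype ι] (c : Cell N ι) : c.dim ≤ Fintype.card ι := Fintype.card_subtype_le _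

theorem dim_lt_of_le [Fintype ι] {a b : Cell N ι} (h : Le a b) (hne : a ≠ b) : a.dim < b.dim := by
  classical
  obtain ⟨j, hj⟩ := Function.ne_iff.1 hne
  simp only [dim, Fintype.card_subtype]
  refine Finset.card_lt_card ⟨fun i hi => ?_, fun hsub => ?_⟩
  · simp only [Finset.mem_filter_univ] at hi ⊢
    rcases h i with he | ⟨hb, -⟩
    · rw [← he]; exact hi
    · exact hb
  · rcases h j with he | ⟨hb, h'⟩
    · exact hj he
    · have hm := hsub (show j ∈ _ from by simpa using hb)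
      simp only [Finset.mem_filter_univ] at hm
      omega

/-- Chart of a cell. -/
noncomputable def chart (c : Cell N ι) (y : c.Dir → I) : ι → I := fun j =>
  projIcc 0 1 zero_le_one
    (((((c j : ℕ) / 2 : ℕ) : ℝ) + if h : (c j : ℕ) % 2 = 1 then (y ⟨j, h⟩ : ℝ) else 0) / N)

/-- Inverse of the chart. -/
noncomputable def coord (c : Cell N ι) (x : ι → I) : c.Dir → I := fun j =>
  projIcc 0 1 zero_le_one (N * (x j : ℝ) - (((c j : ℕ) / 2 : ℕ) : ℝ))

theorem continuous_chart (c : Cell N ι) : Continuous c.chart := by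
  refine continuous_pi fun j => continuous_projIcc.comp ((continuous_const.add ?_).div_const _)
  split_ifs with h
  · exact continuous_subtype_val.comp (continuous_apply _)
  · exact continuous_const

theorem continuous_coord (c : Cell N ι) : Continuous c.coord :=
  continuous_pi fun j => continuous_projIcc.comp
    ((continuous_const.mul (continuous_subtype_val.comp (continuous_apply _))).sub continuous_const)

variable (hN : 0 < N)
include hN

theorem chart_val (c : Cell N ι) (y : c.Dir → I) (j : ι) :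
    N * (c.chart y j : ℝ) =
      (((c j : ℕ) / 2 : ℕ) : ℝ) + if h : (c j : ℕ) % 2 = 1 then (y ⟨j, h⟩ : ℝ) else 0 := by
  have hN' : (0 : ℝ) < N := Nat.cast_pos.2 hN
  have hlt := (c j).2
  simp only [chart]
  split_ifs with h
  · have hle : ((((c j : ℕ) / 2 : ℕ) : ℝ)) + 1 ≤ N := by
      rw [← Nat.cast_add_one]; exact Nat.cast_le.2 (by omega)
    rw [projIcc_of_mem _ ⟨div_nonneg (add_nonneg (Nat.cast_nonneg _) (y ⟨j, h⟩).2.1) hN'.le,
      (div_le_one hN').2 (by linarith [(y ⟨j, h⟩).2.2])⟩]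
    field_simp
  · have hle : ((((c j : ℕ) / 2 : ℕ) : ℝ)) ≤ N := Nat.cast_le.2 (by omega)
    rw [projIcc_of_mem _ ⟨div_nonneg (add_nonneg (Nat.cast_nonneg _) le_rfl) hN'.le,
      (div_le_one hN').2 (by linarith)⟩]
    field_simp

theorem chart_mem (c : Cell N ι) (y : c.Dir → I) : c.chart y ∈ c.set := by
  intro j
  simp only [Code.set, Set.mem_ofPred_eq, chart_val hN]
  split_ifs with h
  · have : (((c j : ℕ) + 1) / 2 : ℕ) = (c j : ℕ) / 2 + 1 := by omega
    rw [this, Nat.cast_add_one]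
    exact ⟨by linarith [(y ⟨j, h⟩).2.1], by linarith [(y ⟨j, h⟩).2.2]⟩
  · have : (((c j : ℕ) + 1) / 2 : ℕ) = (c j : ℕ) / 2 := by omega
    rw [this]; simp

theorem coord_chart (c : Cell N ι) (y : c.Dir → I) : c.coord (c.chart y) = y := by
  funext ⟨j, h⟩
  simp only [coord, chart_val hN, dif_pos h, add_sub_cancel_left]
  exact projIcc_val _ _

theorem chart_coord (c : Cell N ι) {x : ι → I} (hx : x ∈ c.set) : c.chart (c.coord x) = x := by
  funext j
  apply Subtype.ext
  refine mul_left_cancel₀ (Nat.cast_pos.2 hN : (0 : ℝ) < N).ne' ?_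
  rw [chart_val hN]
  obtain ⟨h1, h2⟩ := hx j
  split_ifs with h
  · have he : (((c j : ℕ) + 1) / 2 : ℕ) = (c j : ℕ) / 2 + 1 := by omega
    rw [he, Nat.cast_add_one] at h2
    simp only [coord]
    rw [projIcc_of_mem _ ⟨by linarith, by linarith⟩]
    ring
  · have he : (((c j : ℕ) + 1) / 2 : ℕ) = (c j : ℕ) / 2 := by omega
    rw [he] at h2
    linarith

/-- Boundary points of a cell lie in proper faces. -/
theorem exists_face [Fintype ι] (c : Cell N ι) {y : c.Dir → I} (hy : y ∈ bd c.Dir) :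
    ∃ c', Le c' c ∧ c'.dim < c.dim ∧ c.chart y ∈ c'.set := by
  classical
  obtain ⟨⟨j, h⟩, hy⟩ := hy
  have hlt := (c j).2
  have key : ∀ a : Code N, ((a : ℕ) + 1 = c j ∨ (a : ℕ) = c j + 1) →
      c.chart y j ∈ a.set →
      ∃ c', Le c' c ∧ c'.dim < c.dim ∧ c.chart y ∈ c'.set := by
    intro a ha hm
    have hle : Le (Function.update c j a) c := fun i => by
      by_cases hi : i = j
      · subst hi; rw [Function.update_self]; exact Or.inr ⟨h, ha⟩
      · rw [Function.update_of_ne hi]; exact Or.inl rfl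
    refine ⟨_, hle, dim_lt_of_le hle fun he => ?_, fun i => ?_⟩
    · have := congrFun he j
      rw [Function.update_self] at this
      subst this; omega
    · by_cases hi : i = j
      · subst hi; rw [Function.update_self]; exact hm
      · rw [Function.update_of_ne hi]; exact chart_mem hN c y i
  rcases hy with hy | hy
  · refine key ⟨(c j : ℕ) - 1, by omega⟩ (Or.inl (by simp; omega)) ?_
    simp only [Code.set, Set.mem_ofPred_eq, chart_val hN, dif_pos h, hy]
    have e1 : (((c j : ℕ) - 1) / 2 : ℕ) = (c j : ℕ) / 2 := by omega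
    have e2 : (((c j : ℕ) - 1 + 1) / 2 : ℕ) = (c j : ℕ) / 2 := by omega
    simp [e1, e2]
  · refine key ⟨(c j : ℕ) + 1, by omega⟩ (Or.inr rfl) ?_
    simp only [Code.set, Set.mem_ofPred_eq, chart_val hN, dif_pos h, hy]
    have e1 : (((c j : ℕ) + 1) / 2 : ℕ) = (c j : ℕ) / 2 + 1 := by omega
    have e2 : (((c j : ℕ) + 1 + 1) / 2 : ℕ) = (c j : ℕ) / 2 + 1 := by omega
    simp [e1, e2]

/-- Two cells meet in boundary points of the one that is not a face of the other. -/
theorem coord_mem_bd {c c' : Cell N ι} {x : ι → I} (hx : x ∈ c.set) (hx' : x ∈ c'.set)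
    (hne : ¬ Le c c') : c.coord x ∈ bd c.Dir := by
  obtain ⟨j, hj⟩ : ∃ j, ¬ Code.Le (c j) (c' j) := by simpa [Le] using hne
  simp only [Code.Le, not_or, not_and_or] at hj
  obtain ⟨hj1, hj2⟩ := hj
  have hv : (c j : ℕ) ≠ c' j := fun h => hj1 (Fin.ext h)
  obtain ⟨h1, h2⟩ := hx j
  obtain ⟨h1', h2'⟩ := hx' j
  have k1 : ((c j : ℕ) / 2 : ℕ) ≤ ((c' j : ℕ) + 1) / 2 :=
    Nat.cast_le.1 (show ((((c j : ℕ) / 2 : ℕ)) : ℝ) ≤ _ from h1.trans h2')
  have k2 : ((c' j : ℕ) / 2 : ℕ) ≤ ((c j : ℕ) + 1) / 2 :=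
    Nat.cast_le.1 (show ((((c' j : ℕ) / 2 : ℕ)) : ℝ) ≤ _ from h1'.trans h2)
  have hodd : (c j : ℕ) % 2 = 1 := by omega
  have e1 : (((c j : ℕ) + 1) / 2 : ℕ) = (c j : ℕ) / 2 + 1 := by omega
  refine ⟨⟨j, hodd⟩, ?_⟩
  rcases lt_or_gt_of_ne hv with hlt | hlt
  · right
    have : (((c j : ℕ) / 2 + 1 : ℕ) : ℝ) ≤ (((c' j : ℕ) / 2 : ℕ) : ℝ) := Nat.cast_le.2 (by omega)
    rw [e1] at h2
    push_cast at this h2
    have e : N * (x j : ℝ) - (((c j : ℕ) / 2 : ℕ) : ℝ) = 1 := by linarith
    simp only [coord, e]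
    exact projIcc_right _
  · left
    have : ((((c' j : ℕ) + 1) / 2 : ℕ) : ℝ) ≤ (((c j : ℕ) / 2 : ℕ) : ℝ) := Nat.cast_le.2 (by omega)
    have e : N * (x j : ℝ) - (((c j : ℕ) / 2 : ℕ) : ℝ) = 0 := by linarith
    simp only [coord, e]
    exact projIcc_left _

theorem exists_mem_set [Fintype ι] (x : ι → I) : ∃ c : Cell N ι, x ∈ c.set := by
  have hN' : (0 : ℝ) < N := Nat.cast_pos.2 hN
  have h : ∀ j, ∃ a : Code N, x j ∈ a.set := fun j => by
    refine ⟨⟨2 * min (⌊(N : ℝ) * (x j : ℝ)⌋₊) (N - 1) + 1, by omega⟩, ?_⟩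
    simp only [Code.set, Set.mem_ofPred_eq]
    have h0 : 0 ≤ (N : ℝ) * (x j : ℝ) := mul_nonneg hN'.le (x j).2.1
    constructor
    · refine le_trans (Nat.cast_le.2 ?_) (Nat.floor_le h0)
      omega
    · rcases le_total (⌊(N : ℝ) * (x j : ℝ)⌋₊) (N - 1) with h | h
      · refine le_trans (Nat.lt_floor_add_one _).le ?_
        rw [← Nat.cast_add_one]
        exact Nat.cast_le.2 (by omega)
      · refine le_trans (mul_le_of_le_one_right hN'.le (x j).2.2) (Nat.cast_le.2 ?_)
        omega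
  choose c hc using h
  exact ⟨c, hc⟩

theorem isPreconnected_set (c : Cell N ι) : IsPreconnected c.set := by
  have : c.set = range c.chart := Set.ext fun x =>
    ⟨fun hx => ⟨_, chart_coord hN c hx⟩, fun ⟨y, hy⟩ => hy ▸ chart_mem hN c y⟩
  rw [this]
  exact isPreconnected_range c.continuous_chart

theorem nonempty_set (c : Cell N ι) : c.set.Nonempty := ⟨_, chart_mem hN c fun _ => 0⟩

theorem dist_le {c : Cell N ι} [Fintype ι] {x y : ι → I} (hx : x ∈ c.set) (hy : y ∈ c.set) :
    dist x y ≤ 1 / N := by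
  have hN' : (0 : ℝ) < N := Nat.cast_pos.2 hN
  refine (dist_pi_le_iff (by positivity)).2 fun j => ?_
  rw [Subtype.dist_eq, Real.dist_eq, le_div_iff₀ hN']
  obtain ⟨h1, h2⟩ := hx j
  obtain ⟨h1', h2'⟩ := hy j
  have : ((((c j : ℕ) + 1) / 2 : ℕ) : ℝ) ≤ (((c j : ℕ) / 2 : ℕ) : ℝ) + 1 := by
    rw [← Nat.cast_add_one]; exact Nat.cast_le.2 (by omega)
  rw [← abs_of_pos hN', ← abs_mul, abs_le]
  constructor <;> nlinarith

end Cell

/-- Continuity on a set covered by finitely many closed sets. -/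
theorem continuousOn_of_cover {X Y : Type*} [TopologicalSpace X] [TopologicalSpace Y] {κ : Type*}
    [Finite κ] {S : κ → Set X} (hS : ∀ k, IsClosed (S k)) {f : X → Y}
    (hf : ∀ k, ContinuousOn f (S k)) {T : Set X} (hT : T ⊆ ⋃ k, S k) : ContinuousOn f T :=
  ((locallyFinite_of_finite S).continuousOn_iUnion hS hf).mono hT

end Vale.Agent.P259.Top
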