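import Vale.Agent.P259.Top.SlabCells
import Mathlib.Topology.CompactOpen
import Mathlib.Topology.Homotopy.Contractible

/-!
# The lifting theorem: preimages of members are fibres up to homotopy (P259)
-/

namespace Vale.Agent.P259.Top

open Set unitInterval

universe u v w

variable {H : Type u} {B : Type v} [TopologicalSpace H] [TopologicalSpace B]

/-- Points of `H` with a path in `B` from their image into `V`: the homotopy fibre over `V`. -/
abbrev PathsTo (q : H → B) (V : Set B) :=
  {p : H × C(I, B) // p.2 0 = q p.1 ∧ p.2 1 ∈ V}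

/-- The preimage inside the homotopy fibre, by constant paths. -/
def toPaths (q : H → B) (V : Set B) (h : q ⁻¹' V) : PathsTo q V :=
  ⟨(h.1, ContinuousMap.const I (q h.1)), rfl, h.2⟩

theorem continuous_toPaths {q : H → B} (hq : Continuous q) (V : Set B) :
    Continuous (toPaths q V) :=
  Continuous.subtype_mk (continuous_subtype_val.prodMk
    (ContinuousMap.continuous_const'.comp (hq.comp continuous_subtype_val))) _

variable {J : Type w} {n : ℕ} {q : H → B} {U : J → Set B} {ι : Type} [Fintype ι] {N : ℕ}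
  {Γ : (ι → I) × I → B} {j₀ : J} {G : (ι → I) → H}

/-- The time `m / N`. -/
noncomputable def gridTime (N m : ℕ) : I := projIcc 0 1 zero_le_one ((m : ℝ) / N)

/-- The accumulated homotopy up to time `m / N`. -/
structure Track (q : H → B) (Γ : (ι → I) × I → B) (G g : (ι → I) → H) (k : (ι → I) × I → B)
    (N m : ℕ) (L : (ι → I) × I → H) (P : ((ι → I) × I) × I → B) : Prop where
  cL : Continuous L
  cP : Continuous P
  L_zero : ∀ x, L (x, 0) = G x
  L_after : ∀ x (t : I), (m : ℝ) / N ≤ (t : ℝ) → L (x, t) = g x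
  P_zero : ∀ x t, P ((x, t), 0) = q (L (x, t))
  P_bot : ∀ x v, P ((x, 0), v) = q (G x)
  P_one : ∀ x (t : I), P ((x, t), 1) = Γ (x, min t (gridTime N m))
  P_after : ∀ x (t : I), (m : ℝ) / N ≤ (t : ℝ) → ∀ v, P ((x, t), v) = k (x, v)
  L_bd : ∀ x ∈ bd ι, ∀ t, L (x, t) = G x
  P_bd : ∀ x ∈ bd ι, ∀ t v, P ((x, t), v) = q (G x)

theorem exists_track (hM : Members n q U) (hι : Fintype.card ι ≤ n) (hq : Continuous q)
    (hΓ : Continuous Γ) (hG : Continuous G) (h0 : ∀ x, Γ (x, 0) = q (G x))
    (hside : ∀ x ∈ bd ι, ∀ t, Γ (x, t) = q (G x)) (A : Assign U Γ N j₀) (hN : 0 < N) :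
    ∀ m, ∀ hm : m ≤ N, ∃ (g : (ι → I) → H) (k : (ι → I) × I → B),
      State q U Γ G (fun c => A.W c ⟨2 * m, by omega⟩) (gridTime N m) g k ∧
      (Fintype.card ι < n → ∃ L P, Track q Γ G g k N m L P) := by
  have hN' : (0 : ℝ) < N := Nat.cast_pos.2 hN
  have hgt : ∀ m, m ≤ N → (gridTime N m : ℝ) = (m : ℝ) / N := fun m hm => by
    rw [gridTime, projIcc_of_mem _ ⟨by positivity,
      (div_le_one hN').2 (Nat.cast_le.2 hm)⟩]
  classical
  intro m
  induction m with
  | zero =>
    intro hm
    have ht : gridTime N 0 = 0 := by simp [gridTime]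
    have hmem : ∀ c : Cell N ι, ∀ x ∈ c.set, q (G x) ∈ U (A.W c ⟨2 * 0, by omega⟩) := fun c x hx => by
      rw [← h0]
      exact A.mem c _ x hx 0 (by simp [Code.set])
    refine ⟨G, fun p => q (G p.1), ⟨hG, hq.comp (hG.comp continuous_fst), hmem,
      fun c x hx _ => hmem c x hx, fun _ => rfl, fun x => by rw [ht]; exact (h0 x).symm,
      fun _ _ => rfl, fun _ _ _ => rfl⟩, fun _ => ⟨fun p => G p.1, fun p => q (G p.1.1),
      hG.comp continuous_fst, hq.comp (hG.comp (continuous_fst.comp continuous_fst)),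
      fun _ => rfl, fun _ _ _ => rfl, fun _ _ => rfl, fun _ _ => rfl, fun x t => ?_,
      fun _ _ _ _ => rfl, fun _ _ _ => rfl, fun _ _ _ _ => rfl⟩⟩
    have hmin : min t (0 : I) = 0 := min_eq_right (show (0 : I) ≤ t from t.2.1)
    rw [ht, hmin]
    exact (h0 x).symm
  | succ m ih =>
    intro hm
    obtain ⟨g, k₀, st, htr⟩ := ih (by omega)
    have hm' : m < N := hm
    have e0 : slabTime N m 0 = gridTime N m := by simp [slabTime, gridTime]
    have e1 : slabTime N m 1 = gridTime N (m + 1) := by simp [slabTime, gridTime]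
    have ec : (⟨2 * (m + 1), by omega⟩ : Code N) = Code.fin hm' := rfl
    obtain ⟨g', k', l, K, hd⟩ := slab_cells hM hι hq hΓ hG hside A hm' (g := g) (k₀ := k₀)
      (by rw [e0]; exact st) Finset.univ (fun _ _ _ _ => Finset.mem_univ _)
    have hd' : ∀ c, CellDone n q A G hm' g k₀ g' k' l K c := fun c => hd c (Finset.mem_univ c)
    have hcov : ∀ x : ι → I, ∃ c : Cell N ι, x ∈ c.set := Cell.exists_mem_set hN
    have cg' : Continuous g' := continuousOn_univ.1 (continuousOn_of_cover
      (fun c : Cell N ι => Cell.isClosed_set c) (fun c => (hd' c).cg)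
      fun x _ => mem_iUnion.2 (hcov x))
    have ck' : Continuous k' := continuousOn_univ.1 (continuousOn_of_cover
      (S := fun c : Cell N ι => c.set ×ˢ (univ : Set I))
      (fun c => (Cell.isClosed_set c).prod isClosed_univ) (fun c => (hd' c).ck)
      fun p _ => mem_iUnion.2 ((hcov p.1).imp fun c hc => ⟨hc, mem_univ _⟩))
    refine ⟨g', k', ⟨cg', ck', fun c x hx => (hd' c).mem_g x hx, fun c x hx => (hd' c).mem_k x hx,
      fun x => ?_, fun x => ?_, fun x hx => ?_, fun x hx v => ?_⟩, fun hlt => ?_⟩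
    · obtain ⟨c, hc⟩ := hcov x; exact (hd' c).k_zero x hc
    · obtain ⟨c, hc⟩ := hcov x; rw [← e1]; exact (hd' c).k_one x hc
    · obtain ⟨c, hc⟩ := hcov x; exact (hd' c).g_bd x hc hx
    · obtain ⟨c, hc⟩ := hcov x; exact (hd' c).k_bd x hc hx v
    obtain ⟨L, P, tr⟩ := htr hlt
    have hcd : ∀ c : Cell N ι, c.dim < n := fun c => lt_of_le_of_lt (Cell.dim_le c) hlt
    have cl : Continuous l := continuousOn_univ.1 (continuousOn_of_cover
      (S := fun c : Cell N ι => c.set ×ˢ (univ : Set I))
      (fun c => (Cell.isClosed_set c).prod isClosed_univ) (fun c => (hd' c).cl (hcd c))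
      fun p _ => mem_iUnion.2 ((hcov p.1).imp fun c hc => ⟨hc, mem_univ _⟩))
    have cK : Continuous K := continuousOn_univ.1 (continuousOn_of_cover
      (S := fun c : Cell N ι => (c.set ×ˢ (univ : Set I)) ×ˢ (univ : Set I))
      (fun c => ((Cell.isClosed_set c).prod isClosed_univ).prod isClosed_univ)
      (fun c => (hd' c).cK (hcd c))
      fun p _ => mem_iUnion.2 ((hcov p.1.1).imp fun c hc => ⟨⟨hc, mem_univ _⟩, mem_univ _⟩))
    let sm : I → I := fun t => projIcc 0 1 zero_le_one ((N : ℝ) * (t : ℝ) - m)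
    have hsm : Continuous sm :=
      continuous_projIcc.comp ((continuous_const.mul continuous_subtype_val).sub continuous_const)
    have hsm0 : ∀ t : I, (t : ℝ) = (m : ℝ) / N → sm t = 0 := fun t ht => by
      simp only [sm, ht, mul_div_cancel₀ (m : ℝ) hN'.ne', sub_self]
      exact projIcc_left _
    have hsm1 : ∀ t : I, ((m + 1 : ℕ) : ℝ) / N ≤ (t : ℝ) → sm t = 1 := fun t ht => by
      refine projIcc_of_right_le _ ?_
      rw [div_le_iff₀ hN'] at ht
      push_cast at ht
      linarith
    have hnot : ∀ t : I, ((m + 1 : ℕ) : ℝ) / N ≤ (t : ℝ) → ¬ (t : ℝ) ≤ (m : ℝ) / N := fun t ht h => by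
      have := (div_le_div_iff_of_pos_right hN').1 (ht.trans h)
      push_cast at this
      linarith
    have hc1 : Continuous fun p : (ι → I) × I => ((p.2 : I) : ℝ) :=
      continuous_subtype_val.comp continuous_snd
    refine ⟨fun p => if (p.2 : ℝ) ≤ (m : ℝ) / N then L p else l (p.1, sm p.2),
      fun p => if (p.1.2 : ℝ) ≤ (m : ℝ) / N then P p else K ((p.1.1, sm p.1.2), p.2),
      ?_, ?_, fun x => ?_, fun x t ht => ?_, fun x t => ?_, fun x v => ?_, fun x t => ?_,
      fun x t ht v => ?_, fun x hx t => ?_, fun x hx t v => ?_⟩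
    · refine continuous_if_le hc1 continuous_const tr.cL.continuousOn
        (cl.comp (continuous_fst.prodMk (hsm.comp continuous_snd))).continuousOn fun p hp => ?_
      obtain ⟨c, hc⟩ := hcov p.1
      rw [show p = (p.1, p.2) from rfl, tr.L_after _ _ hp.ge, hsm0 _ hp, (hd' c).l_zero (hcd c) _ hc]
    · refine continuous_if_le (continuous_subtype_val.comp (continuous_snd.comp continuous_fst))
        continuous_const tr.cP.continuousOn
        (cK.comp (((continuous_fst.comp continuous_fst).prodMk
          (hsm.comp (continuous_snd.comp continuous_fst))).prodMk continuous_snd)).continuousOn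
        fun p hp => ?_
      obtain ⟨c, hc⟩ := hcov p.1.1
      rw [show p = ((p.1.1, p.1.2), p.2) from rfl, tr.P_after _ _ hp.ge, hsm0 _ hp,
        (hd' c).K_bot (hcd c) _ hc]
    · have : ((0 : I) : ℝ) ≤ (m : ℝ) / N := by simp only [Set.Icc.coe_zero]; positivity
      simp only [if_pos this]; exact tr.L_zero x
    · obtain ⟨c, hc⟩ := hcov x
      simp only [if_neg (hnot t ht), hsm1 t ht]
      exact (hd' c).l_one (hcd c) x hc
    · obtain ⟨c, hc⟩ := hcov x
      by_cases h : (t : ℝ) ≤ (m : ℝ) / N
      · simp only [if_pos h]; exact tr.P_zero x t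
      · simp only [if_neg h]; exact (hd' c).K_zero (hcd c) x hc _
    · have : ((0 : I) : ℝ) ≤ (m : ℝ) / N := by simp only [Set.Icc.coe_zero]; positivity
      simp only [if_pos this]; exact tr.P_bot x v
    · obtain ⟨c, hc⟩ := hcov x
      by_cases h : (t : ℝ) ≤ (m : ℝ) / N
      · simp only [if_pos h]
        rw [tr.P_one]
        have hle : (m : ℝ) / N ≤ ((m + 1 : ℕ) : ℝ) / N :=
          div_le_div_of_nonneg_right (by push_cast; linarith) hN'.le
        have h2 : t ≤ gridTime N m := show (t : ℝ) ≤ _ by rw [hgt m (by omega)]; exact h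
        have h3 : t ≤ gridTime N (m + 1) :=
          show (t : ℝ) ≤ _ by rw [hgt (m + 1) hm]; exact h.trans hle
        rw [min_eq_left h2, min_eq_left h3]
      · simp only [if_neg h]
        rw [(hd' c).K_one (hcd c) x hc]
        congr 2
        apply Subtype.ext
        refine mul_left_cancel₀ hN'.ne' ?_
        rw [val_slabTime hm']
        have h' : (m : ℝ) < N * (t : ℝ) := by
          rw [not_le, div_lt_iff₀ hN'] at h; linarith
        rcases le_total (t : ℝ) (((m + 1 : ℕ) : ℝ) / N) with h1 | h1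
        · have h2 : t ≤ gridTime N (m + 1) := show (t : ℝ) ≤ _ by rw [hgt (m + 1) hm]; exact h1
          rw [min_eq_left h2]
          rw [le_div_iff₀ hN'] at h1
          push_cast at h1
          simp only [sm]
          rw [projIcc_of_mem _ ⟨by linarith, by linarith⟩]
          ring
        · have h2 : gridTime N (m + 1) ≤ t := show _ ≤ (t : ℝ) by rw [hgt (m + 1) hm]; exact h1
          rw [min_eq_right h2, hgt (m + 1) hm, hsm1 t h1]
          field_simp
          push_cast; ring
    · obtain ⟨c, hc⟩ := hcov x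
      simp only [if_neg (hnot t ht), hsm1 t ht]
      exact (hd' c).K_top (hcd c) x hc v
    · obtain ⟨c, hc⟩ := hcov x
      by_cases h : (t : ℝ) ≤ (m : ℝ) / N
      · simp only [if_pos h]; exact tr.L_bd x hx t
      · simp only [if_neg h]; exact (hd' c).l_bd (hcd c) x hc hx _
    · obtain ⟨c, hc⟩ := hcov x
      by_cases h : (t : ℝ) ≤ (m : ℝ) / N
      · simp only [if_pos h]; exact tr.P_bd x hx t v
      · simp only [if_neg h]; exact (hd' c).K_bd (hcd c) x hc hx _ v

/-- **Lifting theorem.** The preimage of a member is `n`-equivalent to the homotopy fibre over it. -/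
theorem Members.good_fibre (hM : Members n q U) (hq : Continuous q) (j₀ : J) :
    Good n (toPaths q (U j₀)) := by
  have main : ∀ (ι : Type) [Fintype ι], Fintype.card ι ≤ n →
      ∀ (a : C(bd ι, q ⁻¹' U j₀)) (G' : C(ι → I, PathsTo q (U j₀))), Lifts (toPaths q (U j₀)) a G' →
      ∃ g : C(ι → I, q ⁻¹' U j₀), (∀ x : bd ι, g x = a x) ∧ (Fintype.card ι < n →
        ∃ M : C((ι → I) × I, PathsTo q (U j₀)), (∀ x, M (x, 0) = G' x) ∧
          (∀ x, M (x, 1) = toPaths q (U j₀) (g x)) ∧ ∀ x ∈ bd ι, ∀ t, M (x, t) = G' x) := by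
    intro ι _ hι a G' hlift
    let G : (ι → I) → H := fun x => (G' x).1.1
    let Γ : (ι → I) × I → B := fun p => (G' p.1).1.2 p.2
    have hG : Continuous G := continuous_fst.comp (continuous_subtype_val.comp G'.continuous)
    have hΓ : Continuous Γ := continuous_eval.comp
      ((continuous_snd.comp (continuous_subtype_val.comp (G'.continuous.comp continuous_fst))).prodMk
        continuous_snd)
    have h0 : ∀ x, Γ (x, 0) = q (G x) := fun x => (G' x).2.1
    have hGa : ∀ x : bd ι, G x = (a x).1 := fun x => by simp [G, hlift x, toPaths]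
    have hside : ∀ x ∈ bd ι, ∀ t, Γ (x, t) = q (G x) := fun x hx t => by
      simp [Γ, G, hlift ⟨x, hx⟩, toPaths]
    obtain ⟨N, hN, ⟨A⟩⟩ := exists_assign hM j₀ hΓ fun x => (G' x).2.2
    obtain ⟨g, k, st, htr⟩ := exists_track hM hι hq hΓ hG h0 hside A hN N le_rfl
    have hN' : (0 : ℝ) < N := Nat.cast_pos.2 hN
    have hgN : gridTime N N = 1 := by simp [gridTime, div_self hN'.ne']
    have hgU : ∀ x, q (g x) ∈ U j₀ := fun x => by
      obtain ⟨c, hc⟩ := Cell.exists_mem_set hN x
      exact A.top c _ rfl (st.mem_g c x hc)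
    refine ⟨⟨fun x => ⟨g x, hgU x⟩, st.cg.subtype_mk _⟩,
      fun x => Subtype.ext ((st.g_bd x.1 x.2).trans (hGa x)), fun hlt => ?_⟩
    obtain ⟨L, P, tr⟩ := htr hlt
    let u : I → ℝ := fun s => max 0 (2 * (s : ℝ) - 1)
    let w : I → ℝ := fun s => min (2 * (s : ℝ)) 1
    let T : (I × I) → I := fun p => projIcc 0 1 zero_le_one (u p.1 + (1 - u p.1) * (p.2 : ℝ))
    let V : (I × I) → I := fun p =>
      projIcc 0 1 zero_le_one ((1 - u p.1) * ((1 - w p.1) + w p.1 * (p.2 : ℝ)))
    have hu : Continuous u := continuous_const.max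
      ((continuous_const.mul continuous_subtype_val).sub continuous_const)
    have hw : Continuous w := (continuous_const.mul continuous_subtype_val).min continuous_const
    have hr : Continuous fun p : I × I => (p.2 : ℝ) := continuous_subtype_val.comp continuous_snd
    have hT : Continuous T := continuous_projIcc.comp ((hu.comp continuous_fst).add
      ((continuous_const.sub (hu.comp continuous_fst)).mul hr))
    have hV : Continuous V := continuous_projIcc.comp
      ((continuous_const.sub (hu.comp continuous_fst)).mul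
        ((continuous_const.sub (hw.comp continuous_fst)).add ((hw.comp continuous_fst).mul hr)))
    let Φ : C(((ι → I) × I) × I, B) := ⟨fun p => P ((p.1.1, T (p.1.2, p.2)), V (p.1.2, p.2)),
      tr.cP.comp (((continuous_fst.comp continuous_fst).prodMk
        (hT.comp ((continuous_snd.comp continuous_fst).prodMk continuous_snd))).prodMk
        (hV.comp ((continuous_snd.comp continuous_fst).prodMk continuous_snd)))⟩
    have hu0 : u 0 = 0 := by simp [u]
    have hu1 : u 1 = 1 := by norm_num [u]
    have hw0 : w 0 = 0 := by simp [w]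
    let Ls : (ι → I) × I → H := fun p => L (p.1, T (p.2, 0))
    have hstart : ∀ x s, Φ ((x, s), 0) = q (Ls (x, s)) := by
      intro x s
      show P ((x, T (s, 0)), V (s, 0)) = q (L (x, T (s, 0)))
      by_cases h : (2 : ℝ) * s ≤ 1
      · have hus : u s = 0 := max_eq_left (by linarith)
        have hT0 : T (s, 0) = 0 := by simp [T, hus]
        rw [hT0, tr.P_bot, tr.L_zero]
      · have hws : w s = 1 := min_eq_right (le_of_lt (not_le.1 h))
        have hV0 : V (s, 0) = 0 := by simp [V, hws]
        rw [hV0, tr.P_zero]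
    have hend : ∀ x s, Φ ((x, s), 1) ∈ U j₀ := by
      intro x s
      show P ((x, T (s, 1)), V (s, 1)) ∈ U j₀
      have hT1 : T (s, 1) = 1 := by simp [T]
      rw [hT1, tr.P_after x 1 (by simp [div_self hN'.ne'])]
      obtain ⟨c, hc⟩ := Cell.exists_mem_set hN x
      exact A.top c _ rfl (st.mem_k c x hc _)
    refine ⟨⟨fun p => ⟨(Ls p, Φ.curry p), hstart p.1 p.2, hend p.1 p.2⟩,
      Continuous.subtype_mk ((tr.cL.comp (continuous_fst.prodMk
        (hT.comp (continuous_snd.prodMk continuous_const)))).prodMk Φ.curry.continuous) _⟩,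
      fun x => ?_, fun x => ?_, fun x hx t => ?_⟩
    · apply Subtype.ext
      refine Prod.ext ?_ (ContinuousMap.ext fun r => ?_)
      · show L (x, T (0, 0)) = G x
        rw [show T (0, 0) = 0 by simp [T, hu0], tr.L_zero]
      · show P ((x, T (0, r)), V (0, r)) = Γ (x, r)
        rw [show T (0, r) = r by simp [T, hu0], show V (0, r) = 1 by simp [V, hu0, hw0],
          tr.P_one, hgN, min_eq_left (show r ≤ (1 : I) from r.2.2)]
    · apply Subtype.ext
      refine Prod.ext ?_ (ContinuousMap.ext fun r => ?_)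
      · show L (x, T (1, 0)) = g x
        rw [show T (1, 0) = 1 by simp [T, hu1], tr.L_after x 1 (by simp [div_self hN'.ne'])]
      · show P ((x, T (1, r)), V (1, r)) = q (g x)
        rw [show T (1, r) = 1 by simp [T, hu1], show V (1, r) = 0 by simp [V, hu1],
          tr.P_after x 1 (by simp [div_self hN'.ne']), st.k_zero]
    · apply Subtype.ext
      refine Prod.ext ?_ (ContinuousMap.ext fun r => ?_)
      · show L (x, T (t, 0)) = G x
        exact tr.L_bd x hx _
      · show P ((x, T (t, r)), V (t, r)) = Γ (x, r)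
        rw [tr.P_bd x hx, hside x hx]
  refine ⟨fun ι _ hι a G' hG' => ?_, fun ι _ hι a G' hG' => ?_⟩
  · obtain ⟨g, hg, h⟩ := main ι hι.le a G' hG'
    exact ⟨g, hg, h hι⟩
  · obtain ⟨g, hg, -⟩ := main ι hι.le a G' hG'
    exact ⟨g, hg⟩

/-- A good inclusion of subspaces gives `SubGood`. -/
theorem SubGood.of_good {n : ℕ} {V W : Set H} (hVW : V ⊆ W) (h : Good n (Set.inclusion hVW)) :
    SubGood n V W := by
  refine ⟨fun ι _ hι g hg hgW hgV => ?_, fun ι _ hι g hg hgW hgV => ?_⟩
  all_goals
    let a : C(bd ι, V) := ⟨fun x => ⟨g x.1, hgV x.2⟩, (hg.comp continuous_subtype_val).subtype_mk _⟩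
    let G' : C(ι → I, W) := ⟨fun x => ⟨g x, hgW x⟩, hg.subtype_mk _⟩
    have hl : Lifts (Set.inclusion hVW) a G' := fun x => rfl
  · obtain ⟨l, -, M, hM0, hM1, hMb⟩ := h.compress ι hι a G' hl
    refine ⟨fun p => (M p).1, continuous_subtype_val.comp M.continuous, fun p => (M p).2,
      fun x => ?_, fun x => ?_, fun x hx t => ?_⟩
    · show (M (x, 0)).1 = g x
      rw [hM0]; rfl
    · show (M (x, 1)).1 ∈ V
      rw [hM1]; exact (l x).2
    · show (M (x, t)).1 = g x
      rw [hMb x hx]; rfl
  · obtain ⟨l, hle⟩ := h.extends_top ι hι a G' hl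
    exact ⟨fun x => (l x).1, continuous_subtype_val.comp l.continuous, fun x => (l x).2,
      fun x hx => congrArg Subtype.val (hle ⟨x, hx⟩)⟩

/-- Contractible subspaces are fillers. -/
theorem Filler.of_contractible (V : Set H) [ContractibleSpace V] : Filler V := by
  classical
  obtain ⟨c, ⟨K⟩⟩ := id_nullhomotopic V
  intro κ _ a ha hm
  rcases isEmpty_or_nonempty (bd κ) with he | ⟨⟨x₀, hx₀⟩⟩
  · exact ⟨fun _ => c.1, continuous_const, fun _ => c.2, fun x hx => he.elim ⟨x, hx⟩⟩
  · let a' : C(bd κ, V) := ⟨fun x => ⟨a x.1, hm x.2⟩,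
      (continuousOn_iff_continuous_domRestrict.1 ha).subtype_mk _⟩
    obtain ⟨b, hb, hbe⟩ := exists_total a' (a' ⟨x₀, hx₀⟩)
    obtain ⟨g, hg, -, -, hgb⟩ := hep (U := univ) (f := fun _ : κ → I => c) continuous_const
      (fun _ => mem_univ _) (M := fun p => K (unitInterval.symm p.2, b p.1))
      (K.continuous.comp_continuousOn ((unitInterval.continuous_symm.comp continuous_snd).continuousOn.prodMk
        (hb.comp continuous_fst.continuousOn fun p hp => hp)))
      (fun _ _ => mem_univ _) (fun x hx => by simp)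
    refine ⟨fun x => (g (x, 1)).1,
      continuous_subtype_val.comp (hg.comp (continuous_id.prodMk continuous_const)),
      fun x => (g (x, 1)).2, fun x hx => ?_⟩
    show (g (x, 1)).1 = a x
    rw [hgb (x, 1) hx]
    simp [hbe ⟨x, hx⟩, a']
    rfl

end Vale.Agent.P259.Top
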