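import Vale.Agent.P259.Top.Cylinder
import Mathlib.Data.Finset.Max

/-!
# One time slab of the lifting induction (P259)
-/

namespace Vale.Agent.P259.Top

open Set unitInterval

universe u v w

variable {H : Type u} {B : Type v} [TopologicalSpace H] [TopologicalSpace B] {J : Type w}

/-- A good cover of the base for `q`. -/
structure Members (n : ℕ) (q : H → B) (U : J → Set B) : Prop where
  isOpen : ∀ j, IsOpen (U j)
  covers : ∀ x, ∃ j, x ∈ U j
  meet : ∀ (s : Finset J) (S : Set B), s.Nonempty → IsPreconnected S → S.Nonempty →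
    (∀ a ∈ s, S ⊆ U a) → ∃ c, S ⊆ U c ∧ ∀ a ∈ s, U c ⊆ U a
  fill : ∀ j, Filler (U j)
  sub : ∀ a b, U a ⊆ U b → SubGood n (q ⁻¹' U a) (q ⁻¹' U b)

variable {n : ℕ} {q : H → B} {U : J → Set B} {ι : Type} [Fintype ι] {N : ℕ}

/-- Members assigned to the cells of space-time. -/
structure Assign (U : J → Set B) (Γ : (ι → I) × I → B) (N : ℕ) (j₀ : J) where
  W : Cell N ι → Code N → J
  mem : ∀ c τ, ∀ x ∈ Cell.set c, ∀ t ∈ Code.set τ, Γ (x, t) ∈ U (W c τ)
  mono : ∀ {c c' τ τ'}, Cell.Le c c' → Code.Le τ τ' → U (W c τ) ⊆ U (W c' τ')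
  top : ∀ c (τ : Code N), (τ : ℕ) = 2 * N → U (W c τ) ⊆ U j₀

/-- Space-time dimension. -/
noncomputable def dimST (z : Cell N ι × Code N) : ℕ := z.1.dim + (z.2 : ℕ) % 2

theorem dimST_lt {z z' : Cell N ι × Code N} (h₁ : Cell.Le z.1 z'.1) (h₂ : Code.Le z.2 z'.2)
    (hne : z ≠ z') : dimST z < dimST z' := by
  obtain ⟨c, τ⟩ := z
  obtain ⟨c', τ'⟩ := z'
  simp only [dimST] at *
  rcases h₂ with he | ⟨hodd, h⟩
  · subst he
    have hcne : c ≠ c' := fun he => hne (by rw [he])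
    have := Cell.dim_lt_of_le h₁ hcne
    omega
  · by_cases hc : c = c'
    · subst hc; omega
    · have := Cell.dim_lt_of_le h₁ hc
      omega

theorem exists_assign (hM : Members n q U) (j₀ : J) {Γ : (ι → I) × I → B} (hΓ : Continuous Γ)
    (htop : ∀ x, Γ (x, 1) ∈ U j₀) : ∃ N, 0 < N ∧ Nonempty (Assign U Γ N j₀) := by
  classical
  obtain ⟨δ, hδ, hball⟩ := lebesgue_number_lemma_of_metric (isCompact_univ (X := (ι → I) × I))
    (c := fun j => Γ ⁻¹' U j) (fun j => (hM.isOpen j).preimage hΓ)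
    fun p _ => mem_iUnion.2 (hM.covers (Γ p))
  obtain ⟨k, hk⟩ := exists_nat_one_div_lt hδ
  refine ⟨k + 1, k.succ_pos, ?_⟩
  have hN : 0 < k + 1 := k.succ_pos
  let set' : Cell (k + 1) ι × Code (k + 1) → Set ((ι → I) × I) := fun z => z.1.set ×ˢ z.2.set
  have hne : ∀ z, (set' z).Nonempty ∧ IsPreconnected (set' z) := fun z => by
    have h2 := Cell.nonempty_set hN (fun _ : Fin 1 => z.2)
    have h2' : z.2.set.Nonempty ∧ IsPreconnected z.2.set := by
      have himg : z.2.set = (fun x : Fin 1 → I => x 0) '' Cell.set (fun _ : Fin 1 => z.2) := by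
        ext t
        exact ⟨fun ht => ⟨fun _ => t, fun _ => ht, rfl⟩, fun ⟨x, hx, he⟩ => he ▸ hx 0⟩
      rw [himg]
      exact ⟨h2.image _, (Cell.isPreconnected_set hN _).image _ (continuous_apply 0).continuousOn⟩
    exact ⟨(Cell.nonempty_set hN _).prod h2'.1, (Cell.isPreconnected_set hN _).prod h2'.2⟩
  have hbase : ∀ z, ∃ j, Γ '' set' z ⊆ U j ∧ ((z.2 : ℕ) = 2 * (k + 1) → j = j₀) := by
    intro z
    by_cases hz : (z.2 : ℕ) = 2 * (k + 1)
    · refine ⟨j₀, ?_, fun _ => rfl⟩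
      rintro _ ⟨⟨x, t⟩, ⟨-, ht⟩, rfl⟩
      have h1 := ht.1
      rw [hz, Nat.mul_div_cancel_left _ two_pos] at h1
      have : t = 1 := Subtype.ext (le_antisymm t.2.2 (le_of_mul_le_mul_left
        (by simpa using h1) (Nat.cast_pos.2 hN : (0 : ℝ) < (k + 1 : ℕ))))
      rw [this]; exact htop x
    · obtain ⟨p, hp⟩ := (hne z).1
      obtain ⟨j, hj⟩ := hball p (mem_univ p)
      refine ⟨j, ?_, fun h => absurd h hz⟩
      rintro _ ⟨p', hp', rfl⟩
      refine hj (Metric.mem_ball.2 (lt_of_le_of_lt ?_ hk))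
      rw [Prod.dist_eq]
      refine max_le (le_trans (Cell.dist_le hN hp'.1 hp.1) (by simp)) ?_
      have := Cell.dist_le hN (c := fun _ : Fin 1 => z.2) (x := fun _ => p'.2) (y := fun _ => p.2)
        (fun _ => hp'.2) (fun _ => hp.2)
      exact le_trans (dist_le_pi_dist (fun _ : Fin 1 => p'.2) (fun _ => p.2) 0)
        (le_trans this (by simp))
  choose base hbase hbase₀ using hbase
  let Good' : ℕ → (Cell (k + 1) ι × Code (k + 1) → J) → Prop := fun i W =>
    ∀ z, Fintype.card ι + 2 ≤ dimST z + i → Γ '' set' z ⊆ U (W z) ∧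
      (∀ z' : Cell (k + 1) ι × Code (k + 1), Cell.Le z.1 z'.1 → Code.Le z.2 z'.2 →
        U (W z) ⊆ U (W z')) ∧ ((z.2 : ℕ) = 2 * (k + 1) → U (W z) ⊆ U j₀)
  have hd : ∀ z : Cell (k + 1) ι × Code (k + 1), dimST z ≤ Fintype.card ι + 1 := fun z => by
    have := Cell.dim_le z.1
    simp only [dimST]; omega
  have key : ∀ i, ∃ W, Good' i W := by
    intro i
    induction i with
    | zero => exact ⟨base, fun z hz => absurd hz (by have := hd z; omega)⟩
    | succ i ih =>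
      obtain ⟨W, hW⟩ := ih
      have step : ∀ z, Fintype.card ι + 2 = dimST z + (i + 1) → ∃ j, Γ '' set' z ⊆ U j ∧
          (∀ z' : Cell (k + 1) ι × Code (k + 1), Cell.Le z.1 z'.1 → Code.Le z.2 z'.2 → z ≠ z' →
            U j ⊆ U (W z')) ∧ ((z.2 : ℕ) = 2 * (k + 1) → U j ⊆ U j₀) := by
        intro z hz
        obtain ⟨c, hc, hsub⟩ := hM.meet
          (insert (base z) ((Finset.univ.filter fun z' : Cell (k + 1) ι × Code (k + 1) =>
            Cell.Le z.1 z'.1 ∧ Code.Le z.2 z'.2 ∧ z ≠ z').image W))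
          (Γ '' set' z) (Finset.insert_nonempty _ _) ((hne z).2.image _ hΓ.continuousOn) ((hne z).1.image _) fun a ha => by
            rcases Finset.mem_insert.1 ha with rfl | ha
            · exact hbase z
            · obtain ⟨z', hz', rfl⟩ := Finset.mem_image.1 ha
              simp only [Finset.mem_filter_univ] at hz'
              have hlt := dimST_lt hz'.1 hz'.2.1 hz'.2.2
              exact (image_mono (prod_mono (Cell.set_mono hz'.1) (Code.set_mono hz'.2.1))).trans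
                (hW z' (by omega)).1
        refine ⟨c, hc, fun z' h1 h2 h3 => hsub _ (Finset.mem_insert_of_mem
          (Finset.mem_image.2 ⟨z', by simp [h1, h2, h3], rfl⟩)), fun ht => ?_⟩
        rw [← hbase₀ z ht]
        exact hsub _ (Finset.mem_insert_self _ _)
      choose f hf using step
      let W' : Cell (k + 1) ι × Code (k + 1) → J := fun z =>
        if h : Fintype.card ι + 2 = dimST z + (i + 1) then f z h else W z
      refine ⟨W', fun z hz => ?_⟩
      have hold : ∀ z' : Cell (k + 1) ι × Code (k + 1), Fintype.card ι + 2 ≤ dimST z' + i →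
          W' z' = W z' := fun z' h => dif_neg (by omega)
      by_cases h : Fintype.card ι + 2 = dimST z + (i + 1)
      · have hz' : W' z = f z h := dif_pos h
        refine ⟨hz' ▸ (hf z h).1, fun z' h1 h2 => ?_, hz' ▸ (hf z h).2.2⟩
        by_cases hzz : z = z'
        · rw [hzz]
        · rw [hz', hold z' (by have := dimST_lt h1 h2 hzz; omega)]
          exact (hf z h).2.1 z' h1 h2 hzz
      · obtain ⟨a, b, c⟩ := hW z (by omega)
        rw [hold z (by omega)]
        refine ⟨a, fun z' h1 h2 => ?_, c⟩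
        by_cases hzz : z = z'
        · rw [← hzz, hold z (by omega)]
        · rw [hold z' (by have := dimST_lt h1 h2 hzz; omega)]
          exact b z' h1 h2
  obtain ⟨W, hW⟩ := key (Fintype.card ι + 2)
  exact ⟨⟨fun c τ => W (c, τ),
    fun c τ x hx t ht => (hW (c, τ) (Nat.le_add_left _ _)).1 ⟨(x, t), ⟨hx, ht⟩, rfl⟩,
    fun {c c' τ τ'} h1 h2 => (hW (c, τ) (Nat.le_add_left _ _)).2.1 (c', τ') h1 h2,
    fun c τ h => (hW (c, τ) (Nat.le_add_left _ _)).2.2 h⟩⟩

/-- Code of the start of slab `m`. -/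
def Code.bot {m : ℕ} (hm : m < N) : Code N := ⟨2 * m, by omega⟩

/-- Code of slab `m`. -/
def Code.mid {m : ℕ} (hm : m < N) : Code N := ⟨2 * m + 1, by omega⟩

/-- Code of the end of slab `m`. -/
def Code.fin {m : ℕ} (hm : m < N) : Code N := ⟨2 * m + 2, by omega⟩

theorem Code.bot_le {m : ℕ} (hm : m < N) : Code.Le (Code.bot hm) (Code.mid hm) :=
  Or.inr ⟨by simp [Code.mid], Or.inl rfl⟩

theorem Code.fin_le {m : ℕ} (hm : m < N) : Code.Le (Code.fin hm) (Code.mid hm) :=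
  Or.inr ⟨by simp [Code.mid], Or.inr rfl⟩

/-- Time inside slab `m`. -/
noncomputable def slabTime (N m : ℕ) (s : I) : I :=
  projIcc 0 1 zero_le_one (((m : ℝ) + (s : ℝ)) / N)

theorem continuous_slabTime (N m : ℕ) : Continuous (slabTime N m) :=
  continuous_projIcc.comp ((continuous_const.add continuous_subtype_val).div_const _)

theorem val_slabTime {N m : ℕ} (hm : m < N) (s : I) :
    (N : ℝ) * (slabTime N m s : ℝ) = m + s := by
  have hN' : (0 : ℝ) < N := Nat.cast_pos.2 (by omega)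
  have : (m : ℝ) + 1 ≤ N := by exact_mod_cast hm
  rw [slabTime, projIcc_of_mem _ ⟨div_nonneg (add_nonneg (Nat.cast_nonneg _) s.2.1) hN'.le,
    (div_le_one hN').2 (by linarith [s.2.2])⟩]
  field_simp

theorem slabTime_mem {m : ℕ} (hm : m < N) (s : I) : slabTime N m s ∈ (Code.mid hm).set := by
  have e1 : (2 * m + 1) / 2 = m := by omega
  have e2 : (2 * m + 1 + 1) / 2 = m + 1 := by omega
  simp only [Code.set, Code.mid, Set.mem_ofPred_eq, val_slabTime hm, e1, e2]
  push_cast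
  exact ⟨by linarith [s.2.1], by linarith [s.2.2]⟩

theorem slabTime_one_mem {m : ℕ} (hm : m < N) : slabTime N m 1 ∈ (Code.fin hm).set := by
  have e1 : (2 * m + 2) / 2 = m + 1 := by omega
  have e2 : (2 * m + 2 + 1) / 2 = m + 1 := by omega
  simp [Code.set, Code.fin, val_slabTime hm, e1, e2]

theorem slabTime_zero_mem {m : ℕ} (hm : m < N) : slabTime N m 0 ∈ (Code.bot hm).set := by
  have e1 : (2 * m) / 2 = m := by omega
  have e2 : (2 * m + 1) / 2 = m := by omega
  simp [Code.set, Code.bot, val_slabTime hm, e1, e2]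

section Slab

variable {Γ : (ι → I) × I → B} {j₀ : J} {G g : (ι → I) → H} {k₀ : (ι → I) × I → B}

/-- State at a time: a lift with its homotopy to `Γ`. -/
structure State (q : H → B) (U : J → Set B) (Γ : (ι → I) × I → B) (G : (ι → I) → H)
    (Wt : Cell N ι → J) (t : I) (g : (ι → I) → H) (k : (ι → I) × I → B) : Prop where
  cg : Continuous g
  ck : Continuous k
  mem_g : ∀ c, ∀ x ∈ Cell.set c, q (g x) ∈ U (Wt c)
  mem_k : ∀ c, ∀ x ∈ Cell.set c, ∀ v, k (x, v) ∈ U (Wt c)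
  k_zero : ∀ x, k (x, 0) = q (g x)
  k_one : ∀ x, k (x, 1) = Γ (x, t)
  g_bd : ∀ x ∈ bd ι, g x = G x
  k_bd : ∀ x ∈ bd ι, ∀ v, k (x, v) = q (G x)

/-- What has been built on one cell of a slab. -/
structure CellDone (n : ℕ) (q : H → B) (A : Assign U Γ N j₀) (G : (ι → I) → H) {m : ℕ} (hm : m < N)
    (g : (ι → I) → H) (k₀ : (ι → I) × I → B) (g' : (ι → I) → H) (k' : (ι → I) × I → B)
    (l : (ι → I) × I → H) (k : ((ι → I) × I) × I → B) (c : Cell N ι) : Prop where
  cg : ContinuousOn g' c.set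
  ck : ContinuousOn k' (c.set ×ˢ univ)
  mem_g : ∀ x ∈ c.set, q (g' x) ∈ U (A.W c (Code.fin hm))
  mem_k : ∀ x ∈ c.set, ∀ v, k' (x, v) ∈ U (A.W c (Code.fin hm))
  k_zero : ∀ x ∈ c.set, k' (x, 0) = q (g' x)
  k_one : ∀ x ∈ c.set, k' (x, 1) = Γ (x, slabTime N m 1)
  g_bd : ∀ x ∈ c.set, x ∈ bd ι → g' x = G x
  k_bd : ∀ x ∈ c.set, x ∈ bd ι → ∀ v, k' (x, v) = q (G x)
  cl : c.dim < n → ContinuousOn l (c.set ×ˢ univ)
  cK : c.dim < n → ContinuousOn k ((c.set ×ˢ univ) ×ˢ univ)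
  mem_l : c.dim < n → ∀ x ∈ c.set, ∀ s, q (l (x, s)) ∈ U (A.W c (Code.mid hm))
  mem_K : c.dim < n → ∀ x ∈ c.set, ∀ s v, k ((x, s), v) ∈ U (A.W c (Code.mid hm))
  l_zero : c.dim < n → ∀ x ∈ c.set, l (x, 0) = g x
  l_one : c.dim < n → ∀ x ∈ c.set, l (x, 1) = g' x
  K_bot : c.dim < n → ∀ x ∈ c.set, ∀ v, k ((x, 0), v) = k₀ (x, v)
  K_top : c.dim < n → ∀ x ∈ c.set, ∀ v, k ((x, 1), v) = k' (x, v)
  K_zero : c.dim < n → ∀ x ∈ c.set, ∀ s, k ((x, s), 0) = q (l (x, s))
  K_one : c.dim < n → ∀ x ∈ c.set, ∀ s, k ((x, s), 1) = Γ (x, slabTime N m s)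
  l_bd : c.dim < n → ∀ x ∈ c.set, x ∈ bd ι → ∀ s, l (x, s) = G x
  K_bd : c.dim < n → ∀ x ∈ c.set, x ∈ bd ι → ∀ s v, k ((x, s), v) = q (G x)

theorem CellDone.congr {A : Assign U Γ N j₀} {m : ℕ} {hm : m < N} {g' g'' : (ι → I) → H}
    {k' k'' : (ι → I) × I → B} {l l' : (ι → I) × I → H} {k k₂ : ((ι → I) × I) × I → B}
    {c : Cell N ι} (h : CellDone n q A G hm g k₀ g' k' l k c)
    (eg : ∀ x ∈ c.set, g'' x = g' x) (ek : ∀ x ∈ c.set, ∀ v, k'' (x, v) = k' (x, v))
    (el : c.dim < n → ∀ x ∈ c.set, ∀ s, l' (x, s) = l (x, s))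
    (eK : c.dim < n → ∀ x ∈ c.set, ∀ s v, k₂ ((x, s), v) = k ((x, s), v)) :
    CellDone n q A G hm g k₀ g'' k'' l' k₂ c where
  cg := h.cg.congr eg
  ck := h.ck.congr fun p hp => ek p.1 hp.1 p.2
  mem_g x hx := by rw [eg x hx]; exact h.mem_g x hx
  mem_k x hx v := by rw [ek x hx]; exact h.mem_k x hx v
  k_zero x hx := by rw [ek x hx, eg x hx]; exact h.k_zero x hx
  k_one x hx := by rw [ek x hx]; exact h.k_one x hx
  g_bd x hx hb := by rw [eg x hx]; exact h.g_bd x hx hb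
  k_bd x hx hb v := by rw [ek x hx]; exact h.k_bd x hx hb v
  cl hc := (h.cl hc).congr fun p hp => el hc p.1 hp.1 p.2
  cK hc := (h.cK hc).congr fun p hp => eK hc p.1.1 hp.1.1 p.1.2 p.2
  mem_l hc x hx s := by rw [el hc x hx]; exact h.mem_l hc x hx s
  mem_K hc x hx s v := by rw [eK hc x hx]; exact h.mem_K hc x hx s v
  l_zero hc x hx := by rw [el hc x hx]; exact h.l_zero hc x hx
  l_one hc x hx := by rw [el hc x hx, eg x hx]; exact h.l_one hc x hx
  K_bot hc x hx v := by rw [eK hc x hx]; exact h.K_bot hc x hx v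
  K_top hc x hx v := by rw [eK hc x hx, ek x hx]; exact h.K_top hc x hx v
  K_zero hc x hx s := by rw [eK hc x hx, el hc x hx]; exact h.K_zero hc x hx s
  K_one hc x hx s := by rw [eK hc x hx]; exact h.K_one hc x hx s
  l_bd hc x hx hb s := by rw [el hc x hx]; exact h.l_bd hc x hx hb s
  K_bd hc x hx hb s v := by rw [eK hc x hx]; exact h.K_bd hc x hx hb s v

end Slab

end Vale.Agent.P259.Top
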