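import Vale.Agent.P259.Top.Slab

/-!
# The induction over the cells of a slab (P259)
-/

namespace Vale.Agent.P259.Top

open Set unitInterval

universe u v w

variable {H : Type u} {B : Type v} [TopologicalSpace H] [TopologicalSpace B] {J : Type w}
  {n : ℕ} {q : H → B} {U : J → Set B} {ι : Type} [Fintype ι] {N : ℕ}
  {Γ : (ι → I) × I → B} {j₀ : J} {G g : (ι → I) → H} {k₀ : (ι → I) × I → B} {m : ℕ}

theorem slab_cells (hM : Members n q U) (hι : Fintype.card ι ≤ n) (hq : Continuous q)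
    (hΓ : Continuous Γ) (hG : Continuous G) (hside : ∀ x ∈ bd ι, ∀ t, Γ (x, t) = q (G x))
    (A : Assign U Γ N j₀) (hm : m < N)
    (st : State q U Γ G (fun c => A.W c (Code.bot hm)) (slabTime N m 0) g k₀)
    (D : Finset (Cell N ι)) (hD : ∀ c ∈ D, ∀ c', Cell.Le c' c → c' ∈ D) :
    ∃ (g' : (ι → I) → H) (k' : (ι → I) × I → B) (l : (ι → I) × I → H)
      (k : ((ι → I) × I) × I → B), ∀ c ∈ D, CellDone n q A G hm g k₀ g' k' l k c := by
  classical
  have hN : 0 < N := by omega
  induction D using Finset.strongInductionOn with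
  | _ D ih => ?_
  rcases D.eq_empty_or_nonempty with rfl | hne
  · exact ⟨g, k₀, fun p => g p.1, fun p => k₀ (p.1.1, p.2), fun c hc => absurd hc (Finset.notMem_empty c)⟩
  obtain ⟨e, he, hmax⟩ := D.exists_max_image Cell.dim hne
  have hD' : ∀ c ∈ D.erase e, ∀ c', Cell.Le c' c → c' ∈ D.erase e := fun c hc c' hle => by
    obtain ⟨hce, hcD⟩ := Finset.mem_erase.1 hc
    refine Finset.mem_erase.2 ⟨fun h => ?_, hD c hcD c' hle⟩
    subst h
    have := Cell.dim_lt_of_le hle (Ne.symm hce)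
    have := hmax c hcD
    omega
  obtain ⟨g', k', l, k, hdone⟩ := ih (D.erase e) (Finset.erase_ssubset he) hD'
  let φ : (e.Dir → I) → (ι → I) := e.chart
  let ψ : (ι → I) → (e.Dir → I) := e.coord
  have hφ : Continuous φ := e.continuous_chart
  have hψ : Continuous ψ := e.continuous_coord
  have hφψ : ∀ x ∈ e.set, φ (ψ x) = x := fun x hx => Cell.chart_coord hN e hx
  have hφe : ∀ y, φ y ∈ e.set := fun y => Cell.chart_mem hN e y
  have hface : ∀ y ∈ bd e.Dir, ∃ f, f ∈ D.erase e ∧ Cell.Le f e ∧ f.dim < e.dim ∧ φ y ∈ f.set := by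
    intro y hy
    obtain ⟨f, hfe, hfd, hf⟩ := Cell.exists_face hN e hy
    exact ⟨f, Finset.mem_erase.2 ⟨fun h => by subst h; exact lt_irrefl _ hfd, hD e he f hfe⟩,
      hfe, hfd, hf⟩
  have hen : e.dim ≤ n := (Cell.dim_le e).trans hι
  -- data given on the boundary of the cell
  suffices hnew : ∃ (g₁ : (e.Dir → I) → H) (k₁ : (e.Dir → I) × I → B)
      (l₁ : (e.Dir → I) × I → H) (K₁ : ((e.Dir → I) × I) × I → B),
      (∀ y ∈ bd e.Dir, g₁ y = g' (φ y) ∧ (∀ v, k₁ (y, v) = k' (φ y, v)) ∧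
        (e.dim < n → ∀ s, l₁ (y, s) = l (φ y, s) ∧ ∀ v, K₁ ((y, s), v) = k ((φ y, s), v))) ∧
      CellDone n q A G hm g k₀ (fun x => g₁ (ψ x)) (fun p => k₁ (ψ p.1, p.2))
        (fun p => l₁ (ψ p.1, p.2)) (fun p => K₁ ((ψ p.1.1, p.1.2), p.2)) e by
    obtain ⟨g₁, k₁, l₁, K₁, hb, hed⟩ := hnew
    refine ⟨fun x => if x ∈ e.set then g₁ (ψ x) else g' x,
      fun p => if p.1 ∈ e.set then k₁ (ψ p.1, p.2) else k' p,
      fun p => if p.1 ∈ e.set ∧ e.dim < n then l₁ (ψ p.1, p.2) else l p,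
      fun p => if p.1.1 ∈ e.set ∧ e.dim < n then K₁ ((ψ p.1.1, p.1.2), p.2) else k p, fun c hc => ?_⟩
    by_cases hce : c = e
    · subst hce
      exact hed.congr (fun x hx => if_pos hx) (fun x hx v => if_pos hx)
        (fun hd x hx s => if_pos ⟨hx, hd⟩) fun hd x hx s v => if_pos ⟨hx, hd⟩
    have hcD : c ∈ D.erase e := Finset.mem_erase.2 ⟨hce, hc⟩
    have hnle : ¬ Cell.Le e c := fun h => by
      have := Cell.dim_lt_of_le h (Ne.symm hce)
      have := hmax c hc
      omega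
    have hbd : ∀ x ∈ c.set, x ∈ e.set → ψ x ∈ bd e.Dir :=
      fun x hxc hxe => Cell.coord_mem_bd hN hxe hxc hnle
    refine (hdone c hcD).congr (fun x hx => ?_) (fun x hx v => ?_) (fun hc x hx s => ?_)
      fun hc x hx s v => ?_
    · by_cases hxe : x ∈ e.set
      · simp only [if_pos hxe]
        rw [(hb _ (hbd x hx hxe)).1, hφψ x hxe]
      · simp [hxe]
    · by_cases hxe : x ∈ e.set
      · simp only [if_pos hxe]
        rw [(hb _ (hbd x hx hxe)).2.1, hφψ x hxe]
      · simp [hxe]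
    · by_cases hxe : x ∈ e.set ∧ e.dim < n
      · simp only [if_pos hxe]
        rw [((hb _ (hbd x hx hxe.1)).2.2 hxe.2 s).1, hφψ x hxe.1]
      · simp only [if_neg hxe]
    · by_cases hxe : x ∈ e.set ∧ e.dim < n
      · simp only [if_pos hxe]
        rw [((hb _ (hbd x hx hxe.1)).2.2 hxe.2 s).2 v, hφψ x hxe.1]
      · simp only [if_neg hxe]
  by_cases hin : ∀ x ∈ e.set, x ∈ bd ι
  · refine ⟨fun y => G (φ y), fun p => q (G (φ p.1)), fun p => G (φ p.1), fun p => q (G (φ p.1.1)),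
      fun y hy => ?_, ?_⟩
    · obtain ⟨f, hfD, -, hfd, hf⟩ := hface y hy
      have hb := hin _ (hφe y)
      refine ⟨((hdone f hfD).g_bd _ hf hb).symm, fun v => ((hdone f hfD).k_bd _ hf hb v).symm,
        fun hlt s => ⟨((hdone f hfD).l_bd (hfd.trans hlt) _ hf hb s).symm,
          fun v => ((hdone f hfD).K_bd (hfd.trans hlt) _ hf hb s v).symm⟩⟩
    have hqG : Continuous fun x => q (G x) := hq.comp hG
    have cφψ : Continuous fun x => φ (ψ x) := hφ.comp hψ
    have hval : ∀ x ∈ e.set, ∀ t, Γ (x, t) = q (G x) := fun x hx t => hside x (hin x hx) t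
    refine
      { cg := (hG.comp cφψ).continuousOn
        ck := (hqG.comp (cφψ.comp continuous_fst)).continuousOn
        mem_g := fun x hx => ?_
        mem_k := fun x hx v => ?_
        k_zero := fun x _ => rfl
        k_one := fun x hx => ?_
        g_bd := fun x hx _ => ?_
        k_bd := fun x hx _ v => ?_
        cl := fun _ => (hG.comp (cφψ.comp continuous_fst)).continuousOn
        cK := fun _ => (hqG.comp (cφψ.comp (continuous_fst.comp continuous_fst))).continuousOn
        mem_l := fun _ x hx s => ?_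
        mem_K := fun _ x hx s v => ?_
        l_zero := fun _ x hx => ?_
        l_one := fun _ x _ => rfl
        K_bot := fun _ x hx v => ?_
        K_top := fun _ x _ v => rfl
        K_zero := fun _ x _ s => rfl
        K_one := fun _ x hx s => ?_
        l_bd := fun _ x hx _ s => ?_
        K_bd := fun _ x hx _ s v => ?_ }
    all_goals simp only [hφψ x hx]
    · rw [← hval x hx (slabTime N m 1)]; exact A.mem e _ x hx _ (slabTime_one_mem hm)
    · rw [← hval x hx (slabTime N m 1)]; exact A.mem e _ x hx _ (slabTime_one_mem hm)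
    · exact (hval x hx _).symm
    · rw [← hval x hx (slabTime N m s)]; exact A.mem e _ x hx _ (slabTime_mem hm s)
    · rw [← hval x hx (slabTime N m s)]; exact A.mem e _ x hx _ (slabTime_mem hm s)
    · exact (st.g_bd x (hin x hx)).symm
    · exact (st.k_bd x (hin x hx) v).symm
    · exact (hval x hx _).symm
  simp only [not_forall] at hin
  obtain ⟨x₀, hx₀e, hx₀⟩ := hin
  have hψbd : ∀ x ∈ e.set, x ∈ bd ι → ψ x ∈ bd e.Dir := by
    rintro x hx ⟨j, hj⟩
    by_cases hodd : (e j : ℕ) % 2 = 1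
    · refine ⟨⟨j, hodd⟩, ?_⟩
      have h1 := Cell.chart_val hN e (ψ x) j
      rw [show e.chart (ψ x) = x from hφψ x hx, dif_pos hodd] at h1
      have hv := (ψ x ⟨j, hodd⟩).2
      have hlt := (e j).2
      rcases hj with hj | hj
      · left
        rw [hj] at h1
        apply Subtype.ext
        have h0 : (0 : ℝ) ≤ (((e j : ℕ) / 2 : ℕ) : ℝ) := Nat.cast_nonneg _
        simp only [Set.Icc.coe_zero, mul_zero] at h1
        show ((ψ x ⟨j, hodd⟩ : I) : ℝ) = 0
        linarith [hv.1]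
      · right
        rw [hj] at h1
        apply Subtype.ext
        have h0 : ((((e j : ℕ) / 2 : ℕ)) : ℝ) + 1 ≤ N := by
          rw [← Nat.cast_add_one]; exact Nat.cast_le.2 (by omega)
        simp only [Set.Icc.coe_one, mul_one] at h1
        show ((ψ x ⟨j, hodd⟩ : I) : ℝ) = 1
        linarith [hv.2]
    · exfalso
      refine hx₀ ⟨j, ?_⟩
      have : x₀ j = x j := by
        have h1 := Cell.chart_val hN e (ψ x) j
        have h2 := Cell.chart_val hN e (e.coord x₀) j
        rw [show e.chart (ψ x) = x from hφψ x hx, dif_neg hodd] at h1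
        rw [Cell.chart_coord hN e hx₀e, dif_neg hodd] at h2
        exact Subtype.ext (mul_left_cancel₀ (Nat.cast_pos.2 hN : (0 : ℝ) < N).ne' (h2.trans h1.symm))
      rwa [this]
  let F := {f : Cell N ι // f ∈ D.erase e ∧ f.dim < e.dim}
  have hcov : bd e.Dir ⊆ ⋃ f : F, φ ⁻¹' f.1.set := fun y hy => by
    obtain ⟨f, hfD, -, hfd, hf⟩ := hface y hy
    exact mem_iUnion.2 ⟨⟨f, hfD, hfd⟩, hf⟩
  let bot := Code.bot hm
  let mid := Code.mid hm
  let fin := Code.fin hm
  have hb_mid : U (A.W e bot) ⊆ U (A.W e mid) := A.mono (Cell.Le.refl e) (Code.bot_le hm)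
  have ht_mid : U (A.W e fin) ⊆ U (A.W e mid) := A.mono (Cell.Le.refl e) (Code.fin_le hm)
  have hfin : ∀ f, Cell.Le f e → U (A.W f fin) ⊆ U (A.W e fin) := fun f hf => A.mono hf (Or.inl rfl)
  have hmid : ∀ f, Cell.Le f e → U (A.W f mid) ⊆ U (A.W e mid) := fun f hf => A.mono hf (Or.inl rfl)
  -- the side of the prism: for cells of dimension `≤ n` all proper faces have dimension `< n`
  have hlow : ∀ f : Cell N ι, f.dim < e.dim → f.dim < n := fun f hf => lt_of_lt_of_le hf hen
  let S : (e.Dir → I) × I → H := fun p => l (φ p.1, p.2)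
  have hS : ContinuousOn S {p | p.1 ∈ bd e.Dir} := by
    refine continuousOn_of_cover (S := fun f : F => (fun p : (e.Dir → I) × I => φ p.1) ⁻¹' f.1.set)
      (fun f => (Cell.isClosed_set _).preimage (hφ.comp continuous_fst)) (fun f => ?_) ?_
    · exact ((hdone f.1 f.2.1).cl (hlow _ f.2.2)).comp
        ((hφ.comp continuous_fst).prodMk continuous_snd).continuousOn fun p hp => ⟨hp, mem_univ _⟩
    · intro p hp
      obtain ⟨f, hf⟩ := mem_iUnion.1 (hcov hp)
      exact mem_iUnion.2 ⟨f, hf⟩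
  have hSface : ∀ y ∈ bd e.Dir, ∃ f, ∃ _ : Cell.Le f e, f.dim < n ∧ φ y ∈ f.set ∧
      CellDone n q A G hm g k₀ g' k' l k f := fun y hy => by
    obtain ⟨f, hfD, hfe, hfd, hf⟩ := hface y hy
    exact ⟨f, hfe, hlow f hfd, hf, hdone f hfD⟩
  obtain ⟨g₁, hg₁, hg₁V, hg₁b, hl₁⟩ := cellLift (hM.sub _ _ ht_mid) (κ := e.Dir) hen
    (f := fun y => g (φ y)) (st.cg.comp hφ) (fun y => hb_mid (st.mem_g e _ (hφe y))) hS
    (fun p hp => by
      obtain ⟨f, hfe, hfn, hf, hd⟩ := hSface p.1 hp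
      exact hmid f hfe (hd.mem_l hfn _ hf _))
    (fun y hy => by
      obtain ⟨f, -, hfn, hf, hd⟩ := hSface y hy
      exact hd.l_zero hfn _ hf)
    (fun y hy => by
      obtain ⟨f, hfe, hfn, hf, hd⟩ := hSface y hy
      show q (l (φ y, 1)) ∈ _
      rw [hd.l_one hfn _ hf]
      exact hfin f hfe (hd.mem_g _ hf))
  have hg₁b' : ∀ y ∈ bd e.Dir, g₁ y = g' (φ y) := fun y hy => by
    obtain ⟨f, -, hfn, hf, hd⟩ := hSface y hy
    rw [hg₁b y hy]; exact hd.l_one hfn _ hf
  have hΓt : ∀ t, Continuous fun y : e.Dir → I => Γ (φ y, t) :=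
    fun t => hΓ.comp (hφ.prodMk continuous_const)
  obtain ⟨k₁, hk₁, hk₁U, hk₁0, hk₁1, hk₁b⟩ := (hM.fill (A.W e fin)).cylinder
    (f₀ := fun y => q (g₁ y)) (f₁ := fun y => Γ (φ y, slabTime N m 1)) (hq.comp hg₁) (hΓt _)
    hg₁V (fun y => A.mem e _ _ (hφe y) _ (slabTime_one_mem hm))
    (S := fun p => k' (φ p.1, p.2))
    (by
      refine continuousOn_of_cover (S := fun f : F => (fun p : (e.Dir → I) × I => φ p.1) ⁻¹' f.1.set)
        (fun f => (Cell.isClosed_set _).preimage (hφ.comp continuous_fst)) (fun f => ?_) ?_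
      · exact (hdone f.1 f.2.1).ck.comp
          ((hφ.comp continuous_fst).prodMk continuous_snd).continuousOn fun p hp => ⟨hp, mem_univ _⟩
      · intro p hp
        obtain ⟨f, hf⟩ := mem_iUnion.1 (hcov hp)
        exact mem_iUnion.2 ⟨f, hf⟩)
    (fun p hp => by
      obtain ⟨f, hfe, -, hf, hd⟩ := hSface p.1 hp
      exact hfin f hfe (hd.mem_k _ hf _))
    (fun y hy => by
      obtain ⟨f, -, -, hf, hd⟩ := hSface y hy
      rw [hg₁b' y hy]; exact hd.k_zero _ hf)
    (fun y hy => by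
      obtain ⟨f, -, -, hf, hd⟩ := hSface y hy
      exact hd.k_one _ hf)
  have hlK : ∃ (l₁ : (e.Dir → I) × I → H) (K₁ : ((e.Dir → I) × I) × I → B), e.dim < n →
      Continuous l₁ ∧ Continuous K₁ ∧ (∀ p, q (l₁ p) ∈ U (A.W e mid)) ∧
      (∀ p, K₁ p ∈ U (A.W e mid)) ∧ (∀ y, l₁ (y, 0) = g (φ y)) ∧ (∀ y, l₁ (y, 1) = g₁ y) ∧
      (∀ y v, K₁ ((y, 0), v) = k₀ (φ y, v)) ∧ (∀ y v, K₁ ((y, 1), v) = k₁ (y, v)) ∧
      (∀ y s, K₁ ((y, s), 0) = q (l₁ (y, s))) ∧
      (∀ y s, K₁ ((y, s), 1) = Γ (φ y, slabTime N m s)) ∧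
      (∀ y ∈ bd e.Dir, ∀ s, l₁ (y, s) = l (φ y, s)) ∧
      ∀ y ∈ bd e.Dir, ∀ s v, K₁ ((y, s), v) = k ((φ y, s), v) := by
    by_cases hlt : e.dim < n
    swap
    · exact ⟨fun p => g (φ p.1), fun p => q (g (φ p.1.1)), fun h => absurd h hlt⟩
    obtain ⟨l₁, hl₁c, hl₁P, hl₁0, hl₁1, hl₁b⟩ := hl₁ hlt
    let S' : (Option e.Dir → I) × I → B := fun p =>
      if p.1 none = 0 then q (l₁ ((unopt p.1).1, p.2))
      else if p.1 none = 1 then Γ (φ (unopt p.1).1, slabTime N m p.2)
      else k ((φ (unopt p.1).1, p.2), p.1 none)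
    have hSb : ∀ p : (Option e.Dir → I) × I, (unopt p.1).1 ∈ bd e.Dir →
        S' p = k ((φ (unopt p.1).1, p.2), p.1 none) := by
      intro p hp
      obtain ⟨f, -, hfn, hf, hd⟩ := hSface _ hp
      by_cases h0 : p.1 none = 0
      · simp only [S', if_pos h0]
        rw [h0, hd.K_zero hfn _ hf, hl₁b ((unopt p.1).1, p.2) hp]
      · by_cases h1 : p.1 none = 1
        · simp only [S', if_neg h0, if_pos h1]
          rw [h1, hd.K_one hfn _ hf]
        · simp [S', h0, h1]
    have hS1 : ∀ p : (Option e.Dir → I) × I, p.1 none = 1 →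
        S' p = Γ (φ (unopt p.1).1, slabTime N m p.2) := fun p h1 => by
      have h0 : p.1 none ≠ 0 := by rw [h1]; exact one_ne_zero
      simp only [S', if_neg h0, if_pos h1]
    have hcn : Continuous fun p : (Option e.Dir → I) × I => p.1 none :=
      (continuous_apply none).comp continuous_fst
    have hcx : Continuous fun p : (Option e.Dir → I) × I => (unopt p.1).1 :=
      continuous_fst.comp (continuous_unopt.comp continuous_fst)
    have hS' : ContinuousOn S' {p | p.1 ∈ bd (Option e.Dir)} := by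
      have : {p : (Option e.Dir → I) × I | p.1 ∈ bd (Option e.Dir)} =
          ({p | p.1 none = 0} ∪ {p | p.1 none = 1}) ∪ {p | (unopt p.1).1 ∈ bd e.Dir} := by
        ext p; simp only [Set.mem_ofPred_eq, mem_bd_option, Set.mem_union, or_assoc]
      rw [this]
      refine ContinuousOn.union_of_isClosed (ContinuousOn.union_of_isClosed
        ((hq.comp (hl₁c.comp (hcx.prodMk continuous_snd))).continuousOn.congr fun p hp => if_pos hp)
        ((hΓ.comp ((hφ.comp hcx).prodMk
          ((continuous_slabTime N m).comp continuous_snd))).continuousOn.congr fun p hp => hS1 p hp)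
        (isClosed_eq hcn continuous_const) (isClosed_eq hcn continuous_const)) ?_
        ((isClosed_eq hcn continuous_const).union (isClosed_eq hcn continuous_const))
        ((isClosed_bd _).preimage hcx)
      refine ContinuousOn.congr ?_ hSb
      refine continuousOn_of_cover
        (S := fun f : F => (fun p : (Option e.Dir → I) × I => φ (unopt p.1).1) ⁻¹' f.1.set)
        (fun f => (Cell.isClosed_set _).preimage (hφ.comp hcx)) (fun f => ?_) ?_
      · exact ((hdone f.1 f.2.1).cK (hlow _ f.2.2)).comp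
          (((hφ.comp hcx).prodMk continuous_snd).prodMk hcn).continuousOn
          fun p hp => ⟨⟨hp, mem_univ _⟩, mem_univ _⟩
      · intro p hp
        obtain ⟨f, hf⟩ := mem_iUnion.1 (hcov hp)
        exact mem_iUnion.2 ⟨f, hf⟩
    obtain ⟨F₁, hF, hFU, hF0, hF1, hFb⟩ := (hM.fill (A.W e mid)).cylinder
      (f₀ := fun z => k₀ (φ (unopt z).1, (unopt z).2)) (f₁ := fun z => k₁ (unopt z))
      (st.ck.comp ((hφ.comp (continuous_fst.comp continuous_unopt)).prodMk
        (continuous_snd.comp continuous_unopt)))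
      (hk₁.comp continuous_unopt) (fun z => hb_mid (st.mem_k e _ (hφe _) _))
      (fun z => ht_mid (hk₁U _)) hS'
      (fun p hp => by
        rcases mem_bd_option.1 hp with h | h | h
        · simp only [S', if_pos h]; exact hl₁P _
        · rw [hS1 p h]; exact A.mem e _ _ (hφe _) _ (slabTime_mem hm _)
        · rw [hSb p h]
          obtain ⟨f, hfe, hfn, hf, hd⟩ := hSface _ h
          exact hmid f hfe (hd.mem_K hfn _ hf _ _))
      (fun z hz => by
        rcases mem_bd_option.1 hz with h | h | h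
        · simp only [S', if_pos h]
          rw [hl₁0, show (unopt z).2 = 0 from h, st.k_zero]
        · rw [hS1 (z, 0) h]
          simp only [unopt]
          rw [h, st.k_one]
        · rw [hSb (z, 0) h]
          obtain ⟨f, -, hfn, hf, hd⟩ := hSface _ h
          exact hd.K_bot hfn _ hf _)
      (fun z hz => by
        rcases mem_bd_option.1 hz with h | h | h
        · simp only [S', if_pos h]
          rw [hl₁1, show unopt z = ((unopt z).1, 0) from Prod.ext rfl h, hk₁0]
        · rw [hS1 (z, 1) h]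
          rw [show unopt z = ((unopt z).1, 1) from Prod.ext rfl h, hk₁1]
        · rw [hSb (z, 1) h, hk₁b (unopt z) h]
          obtain ⟨f, -, hfn, hf, hd⟩ := hSface _ h
          exact hd.K_top hfn _ hf _)
    refine ⟨l₁, fun p => F₁ (opt (p.1.1, p.2), p.1.2), fun _ => ⟨hl₁c, ?_, hl₁P,
      fun p => hFU _, hl₁0, hl₁1, fun y v => hF0 _, fun y v => hF1 _, fun y s => ?_, fun y s => ?_,
      fun y hy s => hl₁b (y, s) hy, fun y hy s v => ?_⟩⟩
    · exact hF.comp ((continuous_opt.comp ((continuous_fst.comp continuous_fst).prodMk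
        continuous_snd)).prodMk (continuous_snd.comp continuous_fst))
    · show F₁ (opt (y, 0), s) = _
      rw [hFb (opt (y, 0), s) (mem_bd_option.2 (Or.inl rfl))]
      exact if_pos rfl
    · show F₁ (opt (y, 1), s) = _
      rw [hFb (opt (y, 1), s) (mem_bd_option.2 (Or.inr (Or.inl rfl))), hS1 (opt (y, 1), s) rfl]
      rfl
    · show F₁ (opt (y, v), s) = _
      rw [hFb (opt (y, v), s) (mem_bd_option.2 (Or.inr (Or.inr hy))), hSb (opt (y, v), s) hy]
      rfl
  obtain ⟨l₁, K₁, hl⟩ := hlK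
  refine ⟨g₁, k₁, l₁, K₁, fun y hy => ⟨hg₁b' y hy, fun v => hk₁b (y, v) hy, fun hlt s => ?_⟩, ?_⟩
  · obtain ⟨-, -, -, -, -, -, -, -, -, -, hb1, hb2⟩ := hl hlt
    exact ⟨hb1 y hy s, fun v => hb2 y hy s v⟩
  refine
    { cg := (hg₁.comp hψ).continuousOn
      ck := (hk₁.comp ((hψ.comp continuous_fst).prodMk continuous_snd)).continuousOn
      mem_g := fun x _ => hg₁V _
      mem_k := fun x _ v => hk₁U _
      k_zero := fun x _ => hk₁0 _
      k_one := fun x hx => ?_
      g_bd := fun x hx hb => ?_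
      k_bd := fun x hx hb v => ?_
      cl := fun hc => ((hl hc).1.comp ((hψ.comp continuous_fst).prodMk continuous_snd)).continuousOn
      cK := fun hc => ((hl hc).2.1.comp (((hψ.comp (continuous_fst.comp continuous_fst)).prodMk
        (continuous_snd.comp continuous_fst)).prodMk continuous_snd)).continuousOn
      mem_l := fun hc x _ s => (hl hc).2.2.1 _
      mem_K := fun hc x _ s v => (hl hc).2.2.2.1 _
      l_zero := fun hc x hx => ?_
      l_one := fun hc x _ => (hl hc).2.2.2.2.2.1 _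
      K_bot := fun hc x hx v => ?_
      K_top := fun hc x _ v => (hl hc).2.2.2.2.2.2.2.1 _ _
      K_zero := fun hc x _ s => (hl hc).2.2.2.2.2.2.2.2.1 _ _
      K_one := fun hc x hx s => ?_
      l_bd := fun hc x hx hb s => ?_
      K_bd := fun hc x hx hb s v => ?_ }
  · rw [hk₁1, hφψ x hx]
  · obtain ⟨f, hfD, -, -, hf⟩ := hface _ (hψbd x hx hb)
    rw [hg₁b' _ (hψbd x hx hb)]
    rw [hφψ x hx] at hf ⊢
    exact (hdone f hfD).g_bd x hf hb
  · obtain ⟨f, hfD, -, -, hf⟩ := hface _ (hψbd x hx hb)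
    rw [hk₁b (ψ x, v) (hψbd x hx hb)]
    show k' (φ (ψ x), v) = _
    rw [hφψ x hx] at hf ⊢
    exact (hdone f hfD).k_bd x hf hb v
  · rw [(hl hc).2.2.2.2.1, hφψ x hx]
  · rw [(hl hc).2.2.2.2.2.2.1, hφψ x hx]
  · rw [(hl hc).2.2.2.2.2.2.2.2.2.1, hφψ x hx]
  · obtain ⟨f, hfD, -, hfd, hf⟩ := hface _ (hψbd x hx hb)
    rw [(hl hc).2.2.2.2.2.2.2.2.2.2.1 _ (hψbd x hx hb)]
    rw [hφψ x hx] at hf ⊢
    exact (hdone f hfD).l_bd (hfd.trans hc) x hf hb s
  · obtain ⟨f, hfD, -, hfd, hf⟩ := hface _ (hψbd x hx hb)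
    rw [(hl hc).2.2.2.2.2.2.2.2.2.2.2 _ (hψbd x hx hb)]
    rw [hφψ x hx] at hf ⊢
    exact (hdone f hfD).K_bd (hfd.trans hc) x hf hb s v

end Vale.Agent.P259.Top
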